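import Mathlib
import Vale.Agent.P110.Full.Defs
import Vale.Agent.P130.Full.Defs

/-!
Definitions for the analytic core: flat families of column polynomials.
-/

noncomputable section

namespace Vale.Agent.P130.Full.Core

open Finset
open Vale.Agent.P110.Full (ch)

/-- The product of an integer vector with a real vector. -/
def dot {R : ℕ} (v : Fin R → ℤ) (x : Fin R → ℝ) : ℝ := ∑ l, (v l : ℝ) * x l

/-- The `L¹` distance between the normalised power spectrum of a finite sequence and `T`. -/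
def spectralError {m : ℕ} (w : Fin m → ℂ) (T : ℝ → ℝ) : ℝ :=
  ∫ u in (0 : ℝ)..1, |‖∑ j, w j * ch ((j : ℕ) * u)‖ ^ 2 / m - T u|

/-- One line of a class: a chirp sweeping the frequencies of `[0, w / P]` in `τ` steps. -/
def line (P w τ : ℕ) (u : ℝ) : ℂ :=
  ∑ t ∈ Finset.range τ, ch ((t : ℝ) * u - (w : ℝ) * (t : ℝ) ^ 2 / (2 * P * τ))

/-- A random finite set of primitive frequency vectors with symmetric marginals. -/
structure Colours (R : ℕ) where
  Col : Type
  fintype : Fintype Col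
  weight : Col → ℝ
  weight_nonneg : ∀ c, 0 ≤ weight c
  weight_sum : haveI := fintype; ∑ c, weight c = 1
  mem : Col → Finset (Fin R → ℤ)
  primitive : ∀ c, ∀ v ∈ mem c, ∃ ξ : Fin R → ℤ, ∑ l, v l * ξ l = 1
  symm : ∀ v, (haveI := fintype; ∑ c, if -v ∈ mem c then weight c else 0) =
    (haveI := fintype; ∑ c, if v ∈ mem c then weight c else 0)

/-- The probability that a colour contains `v`. -/
def Colours.prob {R : ℕ} (C : Colours R) (v : Fin R → ℤ) : ℝ :=
  haveI := C.fintype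
  ∑ c, if v ∈ C.mem c then C.weight c else 0

/-- A colour with an orientation contains `v`: the colour itself for `true`, its negative for
`false`. -/
def Colours.Has {R : ℕ} (C : Colours R) (x : C.Col × Bool) (v : Fin R → ℤ) : Prop :=
  if x.2 then v ∈ C.mem x.1 else -v ∈ C.mem x.1

/-- At most one element of `Act` occurs in every oriented colour. -/
def Colours.Exclusive {R : ℕ} (C : Colours R) (Act : Finset (Fin R → ℤ)) : Prop :=
  ∀ x, ∀ v ∈ Act, ∀ v' ∈ Act, C.Has x v → C.Has x v' → v = v'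

/-- A colouring of the `2 * q` blocks in which mirror blocks carry opposite orientations. -/
def Colours.AntiOwner {R : ℕ} (C : Colours R) (q : ℕ) (o : ZMod (2 * q) → C.Col × Bool) : Prop :=
  ∀ B, o (-1 - B) = ((o B).1, !(o B).2)

/-- Groups all of whose classes start in blocks owned by that class. -/
def Good {R : ℕ} {I : Type} (C : Colours R) (q W : ℕ) (v : I → Fin R → ℤ) (w : I → ℕ)
    (o : ZMod (2 * q) → C.Col × Bool) (x : (Fin R → ZMod (2 * q)) × Fin W) : Prop :=
  ∀ i, C.Has (o ((∑ l, (v i l : ZMod (2 * q)) * x.1 l) +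
    ((w i * (x.2 : ℕ) / W : ℕ) : ZMod (2 * q)))) (v i)

/-- The frequencies of one coordinate that are active at `ψ`. -/
def active (V : Finset ℤ) (lo hi : ℤ → ℝ) (ψ : ℝ) : Finset ℤ :=
  V.filter fun v => lo v ≤ ψ ∧ ψ ≤ hi v

/-- Tiling data for the carrier: `G` slots with periodic phases on which every positively
oriented vector is an equal-weight sum of lines, the lines of a vector occupying distinct cells of
`ZMod P` inside the cells owned by it. -/
structure Comb {R : ℕ} (C : Colours R) (η : ℝ) where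
  P : ℕ
  G : ℕ
  P_pos : 0 < P
  G_pos : 0 < G
  u : Fin R → ℤ
  u_ne : ∀ v, 0 < C.prob v → ∑ l, v l * u l ≠ 0
  u_small : ∀ v, 0 < C.prob v → 2 * |∑ l, v l * u l| ≤ (P : ℤ)
  own : (Fin R → ℤ) → Finset (ZMod P)
  own_neg : ∀ v y, y ∈ own (-v) ↔ -1 - y ∈ own v
  own_disjoint : ∀ v v', v ≠ v' → (∀ x, ¬ (C.Has x v ∧ C.Has x v')) → Disjoint (own v) (own v')
  own_card : ∀ v, 0 < C.prob v → |((own v).card : ℝ) / P - C.prob v| ≤ η * C.prob v
  phase : Fin G → ℤ → Fin R → ℝ
  lines : (Fin R → ℤ) → ℕ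
  start : ∀ v, Fin G → Fin (lines v) → ℤ
  β : ∀ v, Fin G → Fin (lines v) → ℝ
  expand : ∀ v, 0 < C.prob v → 0 < ∑ l, v l * u l → ∀ g (k : ℤ),
    ch (dot v (phase g k)) =
      (Real.sqrt (lines v) : ℂ)⁻¹ * ∑ i, ch (β v g i - start v g i * k / P)
  cells : ∀ v, 0 < C.prob v → 0 < ∑ l, v l * u l → ∀ g i g' i' (t t' : ℕ),
    (t : ℤ) < ∑ l, v l * u l → (t' : ℤ) < ∑ l, v l * u l →
    ((start v g i + t : ℤ) : ZMod P) = ((start v g' i' + t' : ℤ) : ZMod P) →
    g = g' ∧ (i : ℕ) = i' ∧ t = t'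
  cells_mem : ∀ v, 0 < C.prob v → 0 < ∑ l, v l * u l → ∀ g i (t : ℕ),
    (t : ℤ) < ∑ l, v l * u l → ((start v g i + t : ℤ) : ZMod P) ∈ own v
  mass : ∀ v, 0 < C.prob v → 0 < ∑ l, v l * u l →
    |(G : ℝ) * ((∑ l, v l * u l : ℤ) : ℝ) * lines v / P - C.prob v| ≤ η * C.prob v

end Vale.Agent.P130.Full.Core
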