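import Mathlib
import Vale.Agent.P110.Full.Defs
import Vale.Agent.P130.Full.Core.Defs

/-!
The statements proved by the modules of the analytic core.
-/

noncomputable section

namespace Vale.Agent.P130.Full.Core

open Finset
open Vale.Agent.P110.Full (ch)

/-- Module Chirp: a quadratic exponential sum with one stationary point. -/
def ChirpStatement : Prop :=
  ∀ η > (0 : ℝ), ∃ T₀ : ℝ, ∀ (L : ℕ) (α γ : ℝ), 0 < α → T₀ ≤ α * (L : ℝ) ^ 2 →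
    α * L ≤ 1 / 2 → η * (α * L) ≤ γ → γ ≤ (1 - η) * (α * L) →
    |α * ‖∑ t ∈ Finset.range L, ch (γ * t - α * (t : ℝ) ^ 2 / 2)‖ ^ 2 - 1| ≤ η

/-- Module Line: the spectrum of a line is flat on its arc. -/
def LineStatement : Prop :=
  ∀ (P w : ℕ), 0 < w → 2 * w ≤ P → ∀ η > (0 : ℝ), ∃ τ₀ : ℕ, ∀ τ ≥ τ₀,
    ∫ u in (0 : ℝ)..1, |‖line P w τ u‖ ^ 2 / τ -
      (Set.Ico (0 : ℝ) ((w : ℝ) / P)).indicator (fun _ => (P : ℝ) / w) u| ≤ η

/-- Module Colouring: intervals of load at most one are randomly coloured with exact marginals. -/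
def ColouringStatement : Prop :=
  ∀ (V : Type) [Fintype V] [DecidableEq V] (p lo hi : V → ℝ), (∀ v, 0 ≤ p v) →
    (∀ ψ : ℝ, ∑ v, (if lo v ≤ ψ ∧ ψ ≤ hi v then p v else 0) ≤ 1) → (∀ v, lo v ≤ hi v) →
    ∃ (Col : Type) (_ : Fintype Col) (weight : Col → ℝ) (mem : Col → Finset V),
      (∀ c, 0 ≤ weight c) ∧ ∑ c, weight c = 1 ∧
      (∀ v, ∑ c, (if v ∈ mem c then weight c else 0) = p v) ∧
      ∀ c, ∀ v ∈ mem c, ∀ v' ∈ mem c, v ≠ v' → ∀ ψ : ℝ,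
        ¬ ((lo v ≤ ψ ∧ ψ ≤ hi v) ∧ lo v' ≤ ψ ∧ ψ ≤ hi v')

/-- Module Profile: a bounded integer function of one variable whose twists are, in mean square
over translates of a finite set, sums over active frequencies with constant weights. -/
def ProfileStatement : Prop :=
  ∀ R : ℕ, 2 ≤ R → ∀ η > (0 : ℝ), ∀ δ > (0 : ℝ),
    ∃ (A K : ℕ) (S : ℝ → ℕ) (ξ : Fin K → ℝ) (V : Finset ℤ) (p lo hi : ℤ → ℝ),
      0 < K ∧ (∀ x, S x ≤ A) ∧
      (∀ v ∈ V, v ≠ 0 ∧ -v ∈ V ∧ 0 < p v ∧ p (-v) = p v ∧ lo v ≤ hi v ∧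
        lo (-v) = 1 - hi v ∧ hi (-v) = 1 - lo v) ∧
      (∀ v ∈ V, ∀ v' ∈ V, v ≠ v' → ∑ i, ch ((v - v' : ℤ) * ξ i) = 0) ∧
      (∀ ψ : ℝ, ∑ v ∈ active V lo hi ψ, p v ≤ 1) ∧
      ∀ ψ ∈ Set.Icc δ (1 - δ),
        1 - η ≤ ∑ v ∈ active V lo hi ψ, p v ∧
        (∀ D : ℕ, ∑ d ∈ Finset.Icc 2 D,
          (∑ v ∈ active V lo hi ψ, if (d : ℤ) ∣ v then p v else 0) ^ R ≤
            8 * (3 / 4 : ℝ) ^ R + η) ∧
        ∃ γ : ℤ → ℂ, (∀ v ∈ active V lo hi ψ, ‖γ v‖ ^ 2 = p v) ∧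
          ∀ x : ℝ, ∑ i, ‖ch (ψ * S (x + ξ i)) -
            ∑ v ∈ active V lo hi ψ, γ v * ch (v * (x + ξ i))‖ ^ 2 ≤ η * K

/-- Module Torus: a bounded integer function on a torus whose twists are, in mean square over
translates of a finite set, sums over exclusive frequencies with prescribed weights. -/
def TorusStatement : Prop :=
  ∀ ε > (0 : ℝ), ∃ (R : ℕ) (C : Colours R) (S : (Fin R → ℝ) → ℕ) (A K : ℕ)
    (ξ : Fin K → Fin R → ℝ), 2 ≤ R ∧ 0 < K ∧ (∀ x, S x ≤ A) ∧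
    ∀ ψ ∈ Set.Icc ε (1 - ε), ∃ (Act : Finset (Fin R → ℤ)) (γ : (Fin R → ℤ) → ℂ),
      (∀ v ∈ Act, 0 < C.prob v ∧ ‖γ v‖ ^ 2 = C.prob v) ∧ C.Exclusive Act ∧
      1 - ε ≤ ∑ v ∈ Act, C.prob v ∧
      ∀ x : Fin R → ℝ,
        ∑ i, ‖ch (ψ * S (x + ξ i)) - ∑ v ∈ Act, γ v * ch (dot v (x + ξ i))‖ ^ 2 ≤ ε * K

/-- Module Owner: random colours of the blocks give, on average over the starts, the expected
number of good groups. -/
def OwnerStatement : Prop :=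
  ∀ (I : Type) [Fintype I] [DecidableEq I] (R : ℕ), 2 ≤ R → ∀ (C : Colours R)
    (v : I → Fin R → ℤ),
    (∀ i, ∃ ξ : Fin R → ℤ, ∑ l, v i l * ξ l = 1) →
    (∀ i j, i ≠ j → v i ≠ v j ∧ v i ≠ -v j) → (∀ i, 0 < C.prob (v i)) →
    ∀ (w : I → ℕ) (W : ℕ), 0 < W → (∀ i, 0 < w i ∧ w i ∣ W) →
    ∀ η > (0 : ℝ), ∃ q₀ : ℕ, ∀ q ≥ q₀, q.Prime →
      ∃ o : ZMod (2 * q) → C.Col × Bool, C.AntiOwner q o ∧
        (∀ i, |(Nat.card {B // C.Has (o B) (v i)} : ℝ) - 2 * q * C.prob (v i)| ≤ η * (2 * q)) ∧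
        ∀ i, (∑ᶠ B : {B // C.Has (o B) (v i)}, ∑ l ∈ Finset.range (W / w i),
            |(Nat.card {x : (Fin R → ZMod (2 * q)) × Fin W // Good C q W v w o x ∧
              P110.Full.StartsAt q W v w i x
                (((W : ℤ) * ((B : ZMod (2 * q)).val : ℤ) + (w i * l : ℕ) : ℤ) :
                  ZMod (2 * q * W))} : ℝ) -
              w i * (2 * q : ℝ) ^ (R - 1) * ∏ j ∈ Finset.univ.erase i, C.prob (v j)|) ≤
          η * ((2 * q : ℝ) * ((W / w i : ℕ) : ℝ) *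
            (w i * (2 * q : ℝ) ^ (R - 1) * ∏ j ∈ Finset.univ.erase i, C.prob (v j)))

/-- Module Comb: tiling data of any precision. -/
def CombStatement : Prop :=
  ∀ (R : ℕ), 2 ≤ R → ∀ (C : Colours R), ∀ η > (0 : ℝ), Nonempty (Comb C η)

/-- Module Carrier: long sequences in the torus on which every character has a flat spectrum on
an owned set of frequencies, and which can be shifted to lower any given mean. -/
def CarrierStatement : Prop :=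
  ∀ (R : ℕ), 2 ≤ R → ∀ (C : Colours R) (K : ℕ), 0 < K → ∀ ξ : Fin K → Fin R → ℝ,
  ∀ η > (0 : ℝ), ∀ m₀ : ℕ, ∃ m ≥ m₀, ∃ E : (Fin R → ℤ) → Set ℝ,
    (∀ v, MeasurableSet (E v)) ∧
    (∀ v v', v ≠ v' → (∀ x, ¬ (C.Has x v ∧ C.Has x v')) → Disjoint (E v) (E v')) ∧
    ∀ (f : (Fin R → ℝ) → ℝ) (B : ℝ), (∀ x, ∑ i, f (x + ξ i) ≤ B * K) →
      ∃ φ : Fin m → Fin R → ℝ, ∑ j, f (φ j) ≤ B * m ∧
        ∀ v, 0 < C.prob v →
          spectralError (fun j => ch (dot v (φ j))) ((E v).indicator fun _ => 1 / C.prob v) ≤ η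

end Vale.Agent.P130.Full.Core
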