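import Vale.Agent.P110.Full.Osc
import Vale.Agent.P130.Full.Core.Statements

/-!
A quadratic exponential sum with one interior stationary point.
-/

noncomputable section

namespace Vale.Agent.P130.Full.Core

open Finset MeasureTheory
open Vale.Agent.P110.Full (ch)

/-- The phase of a chirp. -/
def chirpPhase (α γ t : ℝ) : ℝ := γ * t - α * t ^ 2 / 2

lemma four_mul_le_norm_ch_sub_one {δ : ℝ} (h : |δ| ≤ 1 / 2) : 4 * |δ| ≤ ‖ch δ - 1‖ := by
  rw [ch, mul_comm _ Complex.I, Complex.norm_exp_I_mul_ofReal_sub_one, Real.norm_eq_abs,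
    abs_mul, abs_two]
  have h1 := Real.mul_abs_le_abs_sin (x := 2 * Real.pi * δ / 2) (by
    rw [show 2 * Real.pi * δ / 2 = Real.pi * δ by ring, abs_mul, abs_of_pos Real.pi_pos]
    nlinarith [Real.pi_pos])
  rw [show 2 * Real.pi * δ / 2 = Real.pi * δ by ring] at h1 ⊢
  rw [abs_mul, abs_of_pos Real.pi_pos] at h1
  have : 2 / Real.pi * (Real.pi * |δ|) = 2 * |δ| := by field_simp
  linarith

/-- Kusmin-Landau for decreasing increments of constant sign. -/
lemma norm_sum_ch_le {n : ℕ} {m : ℝ} (hm : 0 < m) (F : ℕ → ℝ)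
    (hδ : ∀ i < n, |F (i + 1) - F i| ≤ 1 / 2)
    (hmono : ∀ i, i + 1 < n → F (i + 2) - F (i + 1) ≤ F (i + 1) - F i)
    (hsign : (∀ i < n, m ≤ F (i + 1) - F i) ∨ ∀ i < n, F (i + 1) - F i ≤ -m) :
    ‖∑ i ∈ range n, ch (F i)‖ ≤ 2 / m := by
  rcases n with _ | n
  · simp only [range_zero, sum_empty, norm_zero]; positivity
  set d : ℕ → ℝ := fun i => F (i + 1) - F i with hd
  set W : ℕ → ℂ := fun i => (ch (d i) - 1)⁻¹ with hW
  have hdabs : ∀ i < n + 1, m ≤ |d i| := by
    intro i hi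
    rcases hsign with h | h
    · exact (h i hi).trans (le_abs_self _)
    · exact (le_neg.2 (h i hi)).trans (neg_le_abs _)
  have hne : ∀ i < n + 1, ch (d i) - 1 ≠ 0 := by
    intro i hi h0
    have := four_mul_le_norm_ch_sub_one (hδ i hi)
    rw [h0, norm_zero] at this
    linarith [hdabs i hi]
  have hWle : ∀ i < n + 1, ‖W i‖ ≤ 1 / (4 * m) := by
    intro i hi
    rw [hW, norm_inv, one_div]
    exact inv_anti₀ (by positivity)
      ((mul_le_mul_of_nonneg_left (hdabs i hi) (by norm_num)).trans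
        (four_mul_le_norm_ch_sub_one (hδ i hi)))
  have hterm : ∀ i ∈ range (n + 1), ch (F i) = W i * (ch (F (i + 1)) - ch (F i)) := by
    intro i hi
    have e : ch (F (i + 1)) = ch (F i) * ch (d i) := by
      rw [← P110.Full.ch_add]; congr 1; simp only [hd]; ring
    have := hne i (mem_range.1 hi)
    rw [hW, e]
    field_simp
  have habel : ∀ (g : ℕ → ℂ) (k : ℕ), ∑ i ∈ range (k + 1), W i * (g (i + 1) - g i) =
      W k * g (k + 1) - W 0 * g 0 - ∑ i ∈ range k, (W (i + 1) - W i) * g (i + 1) := by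
    intro g k
    induction k with
    | zero => simp; ring
    | succ k ih => rw [sum_range_succ, ih, sum_range_succ (f := fun i => (W (i + 1) - W i) * g (i + 1))]; ring
  rw [sum_congr rfl hterm, habel (fun i => ch (F i)) n]
  have hvar : ∀ i ∈ range n, ‖(W (i + 1) - W i) * ch (F (i + 1))‖ ≤
      1 / 2 * ((d (i + 1))⁻¹ - (d i)⁻¹) := by
    intro i hi
    have hi := mem_range.1 hi
    have hi1 : i + 1 < n + 1 := by omega
    have hi0 : i < n + 1 := by omega
    rw [norm_mul, P110.Full.norm_ch, mul_one, hW, inv_sub_inv (hne _ hi1) (hne _ hi0),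
      norm_div, norm_mul]
    have e : ch (d i) - 1 - (ch (d (i + 1)) - 1) = ch (d i) - ch (d (i + 1)) := by ring
    rw [e]
    have hle : d (i + 1) ≤ d i := hmono i hi1
    have hpos : 0 < d (i + 1) * d i := by
      rcases hsign with h | h
      · exact mul_pos (hm.trans_le (h _ hi1)) (hm.trans_le (h _ hi0))
      · exact mul_pos_of_neg_of_neg (by linarith [h _ hi1] : F (i + 1 + 1) - F (i + 1) < 0)
          (by linarith [h _ hi0] : F (i + 1) - F i < 0)
    have hprod : 16 * (d (i + 1) * d i) ≤ ‖ch (d (i + 1)) - 1‖ * ‖ch (d i) - 1‖ := by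
      rw [← abs_of_pos hpos, abs_mul]
      calc 16 * (|d (i + 1)| * |d i|) = (4 * |d (i + 1)|) * (4 * |d i|) := by ring
        _ ≤ _ := mul_le_mul (four_mul_le_norm_ch_sub_one (hδ _ hi1))
            (four_mul_le_norm_ch_sub_one (hδ _ hi0)) (by positivity) (norm_nonneg _)
    calc ‖ch (d i) - ch (d (i + 1))‖ / (‖ch (d (i + 1)) - 1‖ * ‖ch (d i) - 1‖)
        ≤ (2 * Real.pi * (d i - d (i + 1))) / (16 * (d (i + 1) * d i)) := by
          refine div_le_div₀ (by nlinarith [Real.pi_pos]) ?_ (by positivity) hprod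
          exact (P110.Full.norm_ch_sub_ch_le _ _).trans (le_of_eq (by
            rw [abs_of_nonneg (sub_nonneg.2 hle)]))
      _ ≤ (8 * (d i - d (i + 1))) / (16 * (d (i + 1) * d i)) := by
          refine div_le_div_of_nonneg_right (mul_le_mul_of_nonneg_right
            (by linarith [Real.pi_le_four]) (sub_nonneg.2 hle)) (by positivity)
      _ = _ := by
          obtain ⟨h1, h2⟩ := mul_ne_zero_iff.1 hpos.ne'
          field_simp
          ring
  have hinv : ∀ i < n + 1, |(d i)⁻¹| ≤ 1 / m := fun i hi => by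
    rw [abs_inv, one_div]; exact inv_anti₀ hm (hdabs i hi)
  have htele : ∑ i ∈ range n, 1 / 2 * ((d (i + 1))⁻¹ - (d i)⁻¹) ≤ 1 / m := by
    rw [← mul_sum, sum_range_sub (fun i => (d i)⁻¹)]
    have h1 := (abs_le.1 (hinv n (by omega))).2
    have h2 := (abs_le.1 (hinv 0 (by omega))).1
    linarith
  have hsum := (norm_sum_le _ _).trans ((sum_le_sum hvar).trans htele)
  have h1 : ‖W n * ch (F (n + 1))‖ ≤ 1 / (4 * m) := by
    rw [norm_mul, P110.Full.norm_ch, mul_one]; exact hWle n (by omega)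
  have h2 : ‖W 0 * ch (F 0)‖ ≤ 1 / (4 * m) := by
    rw [norm_mul, P110.Full.norm_ch, mul_one]; exact hWle 0 (by omega)
  refine (norm_sub_le _ _).trans ((add_le_add ((norm_sub_le _ _).trans (add_le_add h1 h2))
    hsum).trans ?_)
  rw [show 1 / (4 * m) + 1 / (4 * m) + 1 / m = 3 / 2 / m by field_simp; ring]
  exact div_le_div_of_nonneg_right (by norm_num) hm.le

lemma continuous_chirp (α γ : ℝ) : Continuous fun s => ch (chirpPhase α γ s) :=
  P110.Full.continuous_ch.comp (by unfold chirpPhase; fun_prop)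

/-- A slowly oscillating sum is close to its integral. -/
lemma norm_sum_sub_integral_le (α γ M : ℝ) (a n : ℕ) (hM : ∀ s ∈ Set.Icc (a : ℝ) (a + n),
    |γ - α * s| ≤ M) :
    ‖∑ i ∈ range n, ch (chirpPhase α γ ((a + i : ℕ) : ℝ)) -
      ∫ s in (a : ℝ)..((a + n : ℕ) : ℝ), ch (chirpPhase α γ s)‖ ≤ n * (2 * Real.pi * M) := by
  induction n with
  | zero => simp
  | succ n ih =>
    have hint := fun u v : ℝ => (continuous_chirp α γ).intervalIntegrable (μ := volume) u v
    rw [sum_range_succ, ← intervalIntegral.integral_add_adjacent_intervals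
      (hint (a : ℝ) ((a + n : ℕ) : ℝ)) (hint _ ((a + (n + 1) : ℕ) : ℝ))]
    have ih' := ih (fun s hs => hM s ⟨hs.1, hs.2.trans (by push_cast; linarith)⟩)
    have hstep : ‖ch (chirpPhase α γ ((a + n : ℕ) : ℝ)) -
        ∫ s in ((a + n : ℕ) : ℝ)..((a + (n + 1) : ℕ) : ℝ), ch (chirpPhase α γ s)‖ ≤
          2 * Real.pi * M := by
      obtain ⟨c, hc⟩ : ∃ c : ℝ, c = ((a + n : ℕ) : ℝ) := ⟨_, rfl⟩
      rw [show ((a + (n + 1) : ℕ) : ℝ) = c + 1 by rw [hc]; push_cast; ring, ← hc]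
      have e : ch (chirpPhase α γ c) = ∫ _s in c..(c + 1), ch (chirpPhase α γ c) := by simp
      rw [e, ← intervalIntegral.integral_sub intervalIntegrable_const (hint _ _)]
      refine (intervalIntegral.norm_integral_le_of_norm_le_const
        (C := 2 * Real.pi * M) fun s hs => ?_).trans (le_of_eq (by simp))
      rw [Set.uIoc_of_le (by linarith)] at hs
      refine (P110.Full.norm_ch_sub_ch_le _ _).trans
        (mul_le_mul_of_nonneg_left ?_ (by positivity))
      have hmem : ∀ u ∈ Set.Icc c s, u ∈ Set.Icc (a : ℝ) (a + (n + 1 : ℕ)) := by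
        intro u hu
        rw [hc] at hu hs
        push_cast at hu hs ⊢
        have : (0 : ℝ) ≤ n := Nat.cast_nonneg n
        constructor <;> linarith [hu.1, hu.2, hs.2]
      have h1 := abs_le.1 (hM c (hmem c ⟨le_rfl, hs.1.le⟩))
      have h2 := abs_le.1 (hM s (hmem s ⟨hs.1.le, le_rfl⟩))
      have hM0 : 0 ≤ M := (abs_nonneg _).trans (hM s (hmem s ⟨hs.1.le, le_rfl⟩))
      have e2 : chirpPhase α γ c - chirpPhase α γ s =
          (c - s) * (((γ - α * c) + (γ - α * s)) / 2) := by unfold chirpPhase; ring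
      rw [e2, abs_mul]
      calc |c - s| * |((γ - α * c) + (γ - α * s)) / 2| ≤ 1 * M :=
            mul_le_mul (abs_le.2 ⟨by linarith [hs.2], by linarith [hs.1]⟩)
              (abs_le.2 ⟨by linarith, by linarith⟩) (abs_nonneg _) zero_le_one
        _ = M := one_mul M
    rw [add_sub_add_comm]
    refine (norm_add_le _ _).trans ((add_le_add ih' hstep).trans (le_of_eq ?_))
    push_cast
    ring

lemma abs_sq_sub_one_le {x e : ℝ} (hx : 0 ≤ x) (h : |x - 1| ≤ e) (he : e ≤ 1) :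
    |x ^ 2 - 1| ≤ 3 * e := by
  obtain ⟨h1, h2⟩ := abs_le.1 h
  rw [show x ^ 2 - 1 = (x - 1) * (x + 1) by ring, abs_mul, abs_of_pos (show 0 < x + 1 by linarith),
    mul_comm (3 : ℝ)]
  exact mul_le_mul h (by linarith) (by linarith) (by linarith)

/-- Module Chirp. -/
theorem chirp : ChirpStatement := by
  intro η₀ hη₀
  obtain ⟨η, hη, hη1, hηle⟩ : ∃ η : ℝ, 0 < η ∧ η ≤ 1 ∧ η ≤ η₀ :=
    ⟨min η₀ 1, lt_min hη₀ one_pos, min_le_right _ _, min_le_left _ _⟩
  obtain ⟨ζ, hζ, hlim⟩ := P110.Full.exists_fres_limit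
  obtain ⟨T, hT⟩ : ∃ T : ℝ, T = 120 / η := ⟨_, rfl⟩
  obtain ⟨κ, hκ⟩ : ∃ κ : ℝ, κ = η / (792 * T ^ 2) := ⟨_, rfl⟩
  have hT0 : 120 ≤ T := by rw [hT, le_div_iff₀ hη]; nlinarith
  have hT2 : (1 : ℝ) ≤ T ^ 2 := one_le_pow₀ (by linarith)
  have hκ0 : 0 < κ := by rw [hκ]; positivity
  have hκ1 : κ ≤ 1 := by
    rw [hκ, div_le_one (by positivity)]; linarith
  refine ⟨max (4 * T ^ 2 / η₀ ^ 2) (1 / (4 * κ ^ 2)), fun L α γ hα hL hαL hγ1 hγ2 => ?_⟩
  have hL1 := (le_max_left _ _).trans hL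
  have hL2 := (le_max_right _ _).trans hL
  have hL0 : (0 : ℝ) ≤ L := Nat.cast_nonneg L
  have hακ : α ≤ κ ^ 2 := by
    have h1 : α * (α * (L : ℝ) ^ 2) ≤ 1 / 4 := by
      rw [show α * (α * (L : ℝ) ^ 2) = (α * L) ^ 2 by ring]
      nlinarith [mul_nonneg hα.le hL0]
    have h2 := mul_le_mul_of_nonneg_left hL2 hα.le
    have h3 : α * (1 / (4 * κ ^ 2)) ≤ 1 / 4 := h2.trans h1
    rw [mul_one_div, div_le_iff₀ (by positivity)] at h3
    linarith
  obtain ⟨r, hr⟩ : ∃ r : ℝ, r = Real.sqrt α := ⟨_, rfl⟩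
  have hr0 : 0 < r := hr ▸ Real.sqrt_pos.2 hα
  have hrr : r * r = α := by rw [hr]; exact Real.mul_self_sqrt hα.le
  have hrκ : r ≤ κ := by rw [hr]; exact Real.sqrt_le_iff.2 ⟨hκ0.le, hακ⟩
  obtain ⟨D, hD⟩ : ∃ D : ℝ, D = T / r := ⟨_, rfl⟩
  have hrD : r * D = T := by rw [hD]; field_simp
  have hD4 : 4 ≤ D := by
    rw [hD, le_div_iff₀ hr0]; linarith
  obtain ⟨t₀, ht₀⟩ : ∃ t₀ : ℝ, t₀ = γ / α := ⟨_, rfl⟩
  have hαt : α * t₀ = γ := by rw [ht₀]; field_simp
  have hDη : 2 * D ≤ η₀ * L := by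
    have h1 : 4 * T ^ 2 ≤ (η₀ * (r * L)) ^ 2 := by
      rw [mul_pow, mul_pow, sq r, hrr]
      rw [div_le_iff₀ (by positivity)] at hL1
      linarith
    have h2 : (2 * T) ^ 2 ≤ (η₀ * (r * L)) ^ 2 := by rw [mul_pow]; linarith
    have h3 := (sq_le_sq₀ (by linarith) (by positivity)).1 h2
    rw [hD, ← mul_div_assoc, div_le_iff₀ hr0]
    linarith
  have ht1 : η₀ * L ≤ t₀ := le_of_mul_le_mul_left (by rw [hαt]; linarith) hα
  have ht2 : t₀ ≤ (1 - η₀) * L := le_of_mul_le_mul_left (by rw [hαt]; linarith) hα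
  obtain ⟨a, ha⟩ : ∃ a : ℕ, a = ⌈t₀ - D⌉₊ := ⟨_, rfl⟩
  obtain ⟨b, hb⟩ : ∃ b : ℕ, b = ⌊t₀ + D⌋₊ := ⟨_, rfl⟩
  have ha1 : t₀ - D ≤ a := by rw [ha]; exact Nat.le_ceil _
  have ha2 : (a : ℝ) < t₀ - D + 1 := by rw [ha]; exact Nat.ceil_lt_add_one (by linarith)
  have hb1 : (b : ℝ) ≤ t₀ + D := by rw [hb]; exact Nat.floor_le (by linarith)
  have hb2 : t₀ + D < (b : ℝ) + 1 := by rw [hb]; exact Nat.lt_floor_add_one _
  have hab : a ≤ b := by
    have : (a : ℝ) < (b : ℝ) := by linarith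
    exact_mod_cast this.le
  have hbL : b ≤ L := by
    have : (b : ℝ) ≤ L := by nlinarith
    exact_mod_cast this
  obtain ⟨n, rfl⟩ := Nat.exists_eq_add_of_le hab
  obtain ⟨n', rfl⟩ := Nat.exists_eq_add_of_le hbL
  push_cast at *
  have hn' : (0 : ℝ) ≤ n' := Nat.cast_nonneg n'
  have hn0 : (0 : ℝ) ≤ n := Nat.cast_nonneg n
  have ha0 : (0 : ℝ) ≤ a := Nat.cast_nonneg a
  set F : ℕ → ℝ := fun t => chirpPhase α γ t with hF
  have hinc : ∀ t : ℕ, F (t + 1) - F t = α * (t₀ - t - 1 / 2) := by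
    intro t; simp only [hF, chirpPhase]; push_cast; rw [mul_sub, mul_sub, hαt]; ring
  have habs : ∀ t : ℕ, t < a + n + n' → |F (t + 1) - F t| ≤ 1 / 2 := by
    intro t ht
    have : (t : ℝ) + 1 ≤ a + n + n' := by exact_mod_cast ht
    have := Nat.cast_nonneg (α := ℝ) t
    have hL' : 0 ≤ η₀ * ((a : ℝ) + n + n') := by positivity
    rw [hinc, abs_mul, abs_of_pos hα]
    calc α * |t₀ - t - 1 / 2| ≤ α * ((a : ℝ) + n + n') :=
          mul_le_mul_of_nonneg_left (abs_le.2 ⟨by linarith, by linarith⟩) hα.le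
      _ ≤ 1 / 2 := hαL
  have hleft : ‖∑ t ∈ range a, ch (F t)‖ ≤ 2 / (α * (D / 2)) := by
    refine norm_sum_ch_le (by positivity) F (fun i hi => habs i (by omega)) (fun i _ => ?_)
      (Or.inl fun i hi => ?_)
    · rw [show i + 2 = i + 1 + 1 by ring, hinc (i + 1), hinc i]
      push_cast
      linarith
    · have : (i : ℝ) + 1 ≤ a := by exact_mod_cast hi
      rw [hinc]
      exact mul_le_mul_of_nonneg_left (by linarith) hα.le
  have hright : ‖∑ t ∈ range n', ch (F (a + n + t))‖ ≤ 2 / (α * (D / 2)) := by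
    refine norm_sum_ch_le (by positivity) (fun t => F (a + n + t))
      (fun i hi => habs (a + n + i) (by omega)) (fun i _ => ?_) (Or.inr fun i _ => ?_)
    · show F (a + n + i + 1 + 1) - F (a + n + i + 1) ≤ F (a + n + i + 1) - F (a + n + i)
      rw [hinc (a + n + i + 1), hinc (a + n + i)]
      push_cast
      linarith
    · show F (a + n + i + 1) - F (a + n + i) ≤ _
      rw [hinc, ← mul_neg]
      have := Nat.cast_nonneg (α := ℝ) i
      refine mul_le_mul_of_nonneg_left ?_ hα.le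
      push_cast
      linarith
  have hmid : ‖∑ i ∈ range n, ch (F (a + i)) -
      ∫ s in (a : ℝ)..((a + n : ℕ) : ℝ), ch (chirpPhase α γ s)‖ ≤
      n * (2 * Real.pi * (α * D)) := by
    refine norm_sum_sub_integral_le α γ (α * D) a n fun s hs => ?_
    rw [← hαt, ← mul_sub, abs_mul, abs_of_pos hα]
    exact mul_le_mul_of_nonneg_left (abs_le.2 ⟨by linarith [hs.2], by linarith [hs.1]⟩) hα.le
  -- the integral
  set I := ∫ s in (a : ℝ)..((a + n : ℕ) : ℝ), ch (chirpPhase α γ s) with hI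
  have hIeq : r * ‖I‖ =
      ‖∫ u in (r * (a - t₀))..(r * (((a : ℝ) + n) - t₀)), ch (u ^ 2 / 2)‖ := by
    have e1 : ∀ s : ℝ, ch (chirpPhase α γ s) =
        ch (γ * t₀ / 2) * (starRingEnd ℂ) (ch ((r * s - r * t₀) ^ 2 / 2)) := by
      intro s
      rw [P110.Full.conj_ch, ← P110.Full.ch_add]
      congr 1
      rw [show (r * s - r * t₀) ^ 2 = r * r * (s - t₀) ^ 2 by ring, hrr, chirpPhase, ← hαt]
      ring
    rw [hI, intervalIntegral.integral_congr fun s _ => e1 s,
      intervalIntegral.integral_const_mul, norm_mul, P110.Full.norm_ch, one_mul,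
      intervalIntegral.intervalIntegral_conj, RCLike.norm_conj,
      intervalIntegral.integral_comp_mul_sub (fun u => ch (u ^ 2 / 2)) hr0.ne',
      norm_smul, norm_inv, Real.norm_eq_abs, abs_of_pos hr0, ← mul_assoc,
      mul_inv_cancel₀ hr0.ne', one_mul]
    push_cast
    ring_nf
  have hI1 : |r * ‖I‖ - 1| ≤ 2 / T + 2 * r := by
    have hint := fun u v : ℝ => P110.Full.continuous_ch_sq.intervalIntegrable (μ := volume) u v
    obtain ⟨p, hp⟩ : ∃ p : ℝ, p = r * (a - t₀) := ⟨_, rfl⟩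
    obtain ⟨q, hq⟩ : ∃ q : ℝ, q = r * (((a : ℝ) + n) - t₀) := ⟨_, rfl⟩
    rw [hIeq, ← hp, ← hq, ← hζ]
    refine (abs_norm_sub_norm_le _ _).trans ?_
    have hp1 : |p - -T| ≤ r := by
      rw [hp, ← hrD, show r * (a - t₀) - -(r * D) = r * (a - t₀ + D) by ring, abs_mul,
        abs_of_pos hr0]
      exact mul_le_of_le_one_right hr0.le (abs_le.2 ⟨by linarith, by linarith⟩)
    have hq1 : |T - q| ≤ r := by
      rw [hq, ← hrD, show r * D - r * (((a : ℝ) + n) - t₀) = r * (t₀ + D - (a + n)) by ring,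
        abs_mul, abs_of_pos hr0]
      exact mul_le_of_le_one_right hr0.le (abs_le.2 ⟨by linarith, by linarith⟩)
    have hnorm : ∀ u v : ℝ, ‖∫ x in u..v, ch (x ^ 2 / 2)‖ ≤ |v - u| := fun u v =>
      (intervalIntegral.norm_integral_le_of_norm_le_const
        (C := 1) fun x _ => (P110.Full.norm_ch _).le).trans (by rw [one_mul])
    have e : P110.Full.fres T = (∫ x in (-T)..p, ch (x ^ 2 / 2)) +
        ((∫ x in p..q, ch (x ^ 2 / 2)) + ∫ x in q..T, ch (x ^ 2 / 2)) := by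
      rw [intervalIntegral.integral_add_adjacent_intervals (hint p q) (hint q T),
        intervalIntegral.integral_add_adjacent_intervals (hint (-T) p) (hint p T)]
      rfl
    rw [show (∫ x in p..q, ch (x ^ 2 / 2)) - ζ = (P110.Full.fres T - ζ) -
      (∫ x in (-T)..p, ch (x ^ 2 / 2)) - ∫ x in q..T, ch (x ^ 2 / 2) by rw [e]; ring]
    refine (norm_sub_le _ _).trans ((add_le_add ((norm_sub_le _ _).trans
      (add_le_add (hlim T (by linarith)) ((hnorm _ _).trans hp1))) ((hnorm _ _).trans hq1)).trans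
        (by linarith))
  -- assembling
  have hsplit : ∑ t ∈ range (a + n + n'), ch (γ * t - α * (t : ℝ) ^ 2 / 2) =
      (∑ t ∈ range a, ch (F t)) + (∑ t ∈ range n, ch (F (a + t))) +
        ∑ t ∈ range n', ch (F (a + n + t)) := by
    rw [sum_range_add, sum_range_add]
    rfl
  set S := ∑ t ∈ range (a + n + n'), ch (γ * t - α * (t : ℝ) ^ 2 / 2) with hS
  have hdiff : r * ‖S - I‖ ≤ 8 / T + 48 * (r * T ^ 2) := by
    have h1 : ‖S - I‖ ≤ 2 / (α * (D / 2)) + n * (2 * Real.pi * (α * D)) + 2 / (α * (D / 2)) := by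
      rw [hsplit, show ∀ x y z w : ℂ, x + y + z - w = x + (y - w) + z from fun x y z w => by ring]
      exact (norm_add_le _ _).trans (add_le_add ((norm_add_le _ _).trans
        (add_le_add hleft hmid)) hright)
    have h2 : r * (2 / (α * (D / 2))) = 4 / T := by
      rw [← hrr, ← hrD]; field_simp; ring
    have h3 : r * (n * (2 * Real.pi * (α * D))) ≤ 48 * (r * T ^ 2) := by
      have h4 : (n : ℝ) * (2 * Real.pi * (α * D)) ≤ 3 * D * (2 * 4 * (α * D)) :=
        mul_le_mul (by linarith) (mul_le_mul_of_nonneg_right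
          (mul_le_mul_of_nonneg_left Real.pi_le_four two_pos.le) (by positivity))
          (by positivity) (by positivity)
      have h5 : r * (α * D * D) = r * T ^ 2 := by rw [← hrr, ← hrD]; ring
      have h7 : 0 ≤ r * T ^ 2 := by positivity
      have h6 := mul_le_mul_of_nonneg_left h4 hr0.le
      linarith
    calc r * ‖S - I‖ ≤ r * (2 / (α * (D / 2)) + n * (2 * Real.pi * (α * D)) + 2 / (α * (D / 2))) :=
          mul_le_mul_of_nonneg_left h1 hr0.le
      _ ≤ _ := by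
          rw [mul_add, mul_add, h2, show 8 / T = 4 / T + 4 / T by ring]
          linarith
  have hb' : |r * ‖S‖ - 1| ≤ η / 6 := by
    have h1 : |r * ‖S‖ - r * ‖I‖| ≤ r * ‖S - I‖ := by
      rw [← mul_sub, abs_mul, abs_of_pos hr0]
      exact mul_le_mul_of_nonneg_left (abs_norm_sub_norm_le _ _) hr0.le
    have h2 := abs_sub_le (r * ‖S‖) (r * ‖I‖) 1
    have h3 : r * T ^ 2 ≤ η / 792 := by
      calc r * T ^ 2 ≤ κ * T ^ 2 := mul_le_mul_of_nonneg_right hrκ (by positivity)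
        _ = η / 792 := by rw [hκ]; field_simp
    have h4 : 1 / T = η / 120 := by rw [hT]; field_simp
    have h5 : 2 / T = 2 * (1 / T) := by ring
    have h6 : 8 / T = 8 * (1 / T) := by ring
    have h7 : r ≤ r * T ^ 2 := le_mul_of_one_le_right hr0.le hT2
    linarith
  have := abs_sq_sub_one_le (by positivity) hb' (by linarith)
  rw [mul_pow, sq r, hrr] at this
  linarith

end Vale.Agent.P130.Full.Core
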