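import Mathlib
import Vale.Agent.P130.Full.Core.Statements

/-!
Module Colouring: intervals of load at most one are randomly coloured with exact marginals.
-/

noncomputable section

namespace Vale.Agent.P130.Full.Core

open Finset

private theorem colour_finset {V : Type} [DecidableEq V] (p lo hi : V → ℝ)
    (hp : ∀ v, 0 ≤ p v) (hle : ∀ v, lo v ≤ hi v) (s : Finset V) :
    (∀ ψ : ℝ, ∑ v ∈ s, (if lo v ≤ ψ ∧ ψ ≤ hi v then p v else 0) ≤ 1) →
    ∃ (Col : Type) (_ : Fintype Col) (weight : Col → ℝ) (mem : Col → Finset V),
      (∀ c, 0 ≤ weight c) ∧ ∑ c, weight c = 1 ∧ (∀ c, mem c ⊆ s) ∧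
      (∀ v ∈ s, ∑ c, (if v ∈ mem c then weight c else 0) = p v) ∧
      ∀ c, ∀ v ∈ mem c, ∀ v' ∈ mem c, v ≠ v' → ∀ ψ : ℝ,
        ¬ ((lo v ≤ ψ ∧ ψ ≤ hi v) ∧ lo v' ≤ ψ ∧ ψ ≤ hi v') := by
  induction s using Finset.induction_on_max_value lo with
  | empty =>
    exact fun _ => ⟨Unit, inferInstance, fun _ => 1, fun _ => ∅, fun _ => zero_le_one, by simp,
      fun _ => Finset.empty_subset _, by simp, by simp⟩
  | insert a s has hmax ih =>
    intro hload
    obtain ⟨Col, _, wt, mem, hwt, hsum, hsub, hmarg, hdis⟩ := ih fun ψ =>
      le_trans (Finset.sum_le_sum_of_subset_of_nonneg (Finset.subset_insert a s)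
        fun v _ _ => by split_ifs <;> simp [hp v]) (hload ψ)
    classical
    let busy : Col → Prop := fun c => ∃ u ∈ mem c, lo a ≤ hi u
    set free := ∑ c, if busy c then 0 else wt c with hfree
    have hbusy : ∑ c, (if busy c then wt c else 0) ≤
        ∑ u ∈ s, if lo u ≤ lo a ∧ lo a ≤ hi u then p u else 0 := by
      calc ∑ c, (if busy c then wt c else 0)
          ≤ ∑ c, ∑ u ∈ s, (if lo u ≤ lo a ∧ lo a ≤ hi u then
              (if u ∈ mem c then wt c else 0) else 0) := by
            refine Finset.sum_le_sum fun c _ => ?_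
            split_ifs with h
            · obtain ⟨u, hu, hau⟩ := h
              refine le_trans ?_ (Finset.single_le_sum (fun u _ => ?_) (hsub c hu))
              · simp [hu, hau, hmax u (hsub c hu)]
              · split_ifs <;> simp [hwt c]
            · exact Finset.sum_nonneg fun u _ => by split_ifs <;> simp [hwt c]
        _ = _ := by
            rw [Finset.sum_comm]
            refine Finset.sum_congr rfl fun u hu => ?_
            split_ifs with h
            · exact hmarg u hu
            · simp
    have hpa : p a ≤ free := by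
      have h1 := hload (lo a)
      rw [Finset.sum_insert has, if_pos ⟨le_rfl, hle a⟩] at h1
      have h2 : free + ∑ c, (if busy c then wt c else 0) = 1 := by
        rw [← hsum, hfree, ← Finset.sum_add_distrib]
        exact Finset.sum_congr rfl fun c _ => by split_ifs <;> simp
      linarith
    set r := p a / free with hr
    have hfree0 : 0 ≤ free := le_trans (hp a) hpa
    have hr0 : 0 ≤ r := div_nonneg (hp a) hfree0
    have hr1 : r ≤ 1 := div_le_one_of_le₀ hpa hfree0
    have hrfree : r * free = p a := by
      rcases eq_or_ne free 0 with h | h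
      · rw [h, mul_zero]
        linarith [hp a]
      · rw [hr, div_mul_cancel₀ _ h]
    let wt' : Col × Bool → ℝ := fun x => if busy x.1 then (if x.2 then 0 else wt x.1)
      else (if x.2 then r * wt x.1 else (1 - r) * wt x.1)
    let mem' : Col × Bool → Finset V := fun x =>
      if x.2 ∧ ¬ busy x.1 then insert a (mem x.1) else mem x.1
    refine ⟨Col × Bool, inferInstance, wt', mem', fun x => ?_, ?_, fun x => ?_, ?_, ?_⟩
    · simp only [wt']
      split_ifs <;> first
        | exact le_rfl
        | exact hwt _
        | exact mul_nonneg (by linarith) (hwt _)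
    · rw [Fintype.sum_prod_type, ← hsum]
      refine Finset.sum_congr rfl fun c _ => ?_
      simp only [wt', Fintype.sum_bool]
      split_ifs <;> simp at * <;> ring
    · simp only [mem']
      split_ifs
      · exact Finset.insert_subset_insert a (hsub _)
      · exact (hsub _).trans (Finset.subset_insert a s)
    · intro v hv
      rw [Fintype.sum_prod_type]
      rcases Finset.mem_insert.1 hv with rfl | hvs
      · rw [← hrfree, hfree, Finset.mul_sum]
        refine Finset.sum_congr rfl fun c _ => ?_
        have hn : v ∉ mem c := fun h => has (hsub c h)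
        by_cases hb : busy c <;> simp [wt', mem', hb, hn]
      · rw [← hmarg v hvs]
        refine Finset.sum_congr rfl fun c _ => ?_
        have hne : v ≠ a := fun h => has (h ▸ hvs)
        by_cases hb : busy c <;> by_cases hm : v ∈ mem c <;> simp [wt', mem', hb, hm, hne]
        ring
    · rintro ⟨c, b⟩ v hv v' hv' hne ψ ⟨⟨h1, h2⟩, h3, h4⟩
      simp only [mem'] at hv hv'
      split_ifs at hv hv' with hb
      · rw [Finset.mem_insert] at hv hv'
        rcases hv with rfl | hv
        · rcases hv' with rfl | hv'
          · exact hne rfl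
          · exact hb.2 ⟨v', hv', h1.trans h4⟩
        · rcases hv' with rfl | hv'
          · exact hb.2 ⟨v, hv, h3.trans h2⟩
          · exact hdis c v hv v' hv' hne ψ ⟨⟨h1, h2⟩, h3, h4⟩
      · exact hdis c v hv v' hv' hne ψ ⟨⟨h1, h2⟩, h3, h4⟩

theorem colouring : ColouringStatement := by
  intro V _ _ p lo hi hp hload hle
  obtain ⟨Col, iCol, wt, mem, hwt, hsum, -, hmarg, hdis⟩ :=
    colour_finset p lo hi hp hle Finset.univ hload
  exact ⟨Col, iCol, wt, mem, hwt, hsum, fun v => hmarg v (Finset.mem_univ v), hdis⟩

end Vale.Agent.P130.Full.Core
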