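import Mathlib
import Vale.Agent.P110.Full.Gauss
import Vale.Agent.P110.Full.Moduli
import Vale.Agent.P110.Full.Assembly.Gauss
import Vale.Agent.P110.Full.Assembly.Groups
import Vale.Agent.P130.Full.Core.Statements
import Vale.Agent.P130.Full.Core.Comb.Groups
import Vale.Agent.P130.Full.Core.Comb.Class

/-!
Module Comb: tiling data of any precision.
-/

noncomputable section

namespace Vale.Agent.P130.Full.Core

open Finset
open Vale.Agent.P110.Full (ch ch_add block_eq exists_carrier exists_orthogonal exists_groups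
  exists_residues)

theorem Colours.prob_le_one {R : ℕ} (C : Colours R) (v : Fin R → ℤ) : C.prob v ≤ 1 := by
  have := C.fintype
  refine le_trans (Finset.sum_le_sum fun c _ => ?_) C.weight_sum.le
  split_ifs
  · exact le_rfl
  · exact C.weight_nonneg c

/-- Owned cells of opposite vectors are mirror images. -/
theorem card_own_neg {R P : ℕ} [NeZero P] (own : (Fin R → ℤ) → Finset (ZMod P))
    (h : ∀ v y, y ∈ own (-v) ↔ -1 - y ∈ own v) (v : Fin R → ℤ) :
    (own (-v)).card = (own v).card :=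
  Finset.card_equiv (Equiv.subLeft (-1 : ZMod P)) fun y => by
    rw [Equiv.subLeft_apply]
    exact h v y

/-- The mass of a class. -/
theorem mass_close {G U p m w M Jμ a η₀ η' : ℝ} (hU : p * m * Jμ = U * w) (hG : |G - U| ≤ a * U)
    (hw : 0 < w) (hm : 0 < m) (hJ : 0 < Jμ) (hp : 0 < p) (hη0 : 0 ≤ η₀) (hη1 : η' ≤ 1)
    (ha : 0 ≤ a) (haη : a + 2 * η₀ ≤ η') (hM : (1 - η₀) * Jμ ≤ M) (hM' : M ≤ Jμ) :
    |G * w / (m * M) - p| ≤ η' * p := by
  have hM0 : 0 < M := lt_of_lt_of_le (mul_pos (by linarith) hJ) hM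
  have h := abs_le.1 hG
  have hmp : 0 < p * m := mul_pos hp hm
  rw [abs_le, le_sub_iff_add_le, sub_le_iff_le_add, le_div_iff₀ (mul_pos hm hM0),
    div_le_iff₀ (mul_pos hm hM0)]
  constructor
  · have h1 : (1 - a) * (p * m * Jμ) ≤ G * w := by
      rw [hU]
      nlinarith [mul_le_mul_of_nonneg_right h.1 hw.le]
    have h2 : (1 - η') * (p * m * M) ≤ (1 - a) * (p * m * Jμ) :=
      mul_le_mul (by linarith) (mul_le_mul_of_nonneg_left hM' hmp.le) (by positivity) (by linarith)
    calc (-(η' * p) + p) * (m * M) = (1 - η') * (p * m * M) := by ring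
      _ ≤ _ := h2.trans h1
  · have h1 : G * w ≤ (1 + a) * (p * m * Jμ) := by
      rw [hU]
      nlinarith [mul_le_mul_of_nonneg_right h.2 hw.le]
    have h3 : 1 + a ≤ (1 + η') * (1 - η₀) := by nlinarith
    have h2 : (1 + a) * (p * m * Jμ) ≤ (1 + η') * (p * m * M) := by
      calc (1 + a) * (p * m * Jμ) ≤ (1 + η') * (1 - η₀) * (p * m * Jμ) :=
            mul_le_mul_of_nonneg_right h3 (by positivity)
        _ = (1 + η') * (p * m) * ((1 - η₀) * Jμ) := by ring
        _ ≤ (1 + η') * (p * m) * M := mul_le_mul_of_nonneg_left hM (by nlinarith)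
        _ = _ := by ring
    calc G * w ≤ (1 + η') * (p * m * M) := h1.trans h2
      _ = (η' * p + p) * (m * M) := by ring

/-- The choice of a class for a vector. -/
def pick {R N : ℕ} (v : Fin N → Fin R → ℤ) (x : Fin R → ℤ) : Option (Fin N) :=
  haveI := Classical.propDecidable (∃ i, v i = x)
  if h : ∃ i, v i = x then some h.choose else none

theorem pick_self {R N : ℕ} {v : Fin N → Fin R → ℤ} (hv : Function.Injective v) (i : Fin N) :
    pick v (v i) = some i := by
  have h : ∃ j, v j = v i := ⟨i, rfl⟩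
  rw [pick, dif_pos h, hv h.choose_spec]

/-- Distributed residues and starts give tiling data. -/
theorem comb_of_data {R N q W : ℕ} [NeZero q] (C : Colours R) {η : ℝ} (hW : 0 < W)
    (o : ZMod (2 * q) → C.Col × Bool) (ho : C.AntiOwner q o) (u : Fin R → ℤ)
    (v : Fin N → Fin R → ℤ) (hune : ∀ x, 0 < C.prob x → ∑ l, x l * u l ≠ 0)
    (hvinj : Function.Injective v)
    (hvall : ∀ x, 0 < C.prob x → 0 < ∑ l, x l * u l → ∃ i, v i = x)
    (w : Fin N → ℕ) (hu : ∀ i, ∑ l, v i l * u l = w i) (hw : ∀ i, 0 < w i ∧ w i ∣ W)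
    (M : Fin N → ℕ) (hM : ∀ i, 0 < M i) (B : Fin R → ℤ) (b : Fin N → ℤ)
    (β : ∀ i, Fin (∏ j ∈ univ.erase i, M j) → ℝ)
    (hvB : ∀ i, ∑ l, v i l * B l = (M i : ℤ) * b i)
    (hβ : ∀ i (k : ℤ), ch ((b i : ℝ) * k ^ 2 / (∏ j ∈ univ.erase i, M j : ℕ)) =
        (Real.sqrt (∏ j ∈ univ.erase i, M j : ℕ) : ℂ)⁻¹ *
          ∑ t : Fin (∏ j ∈ univ.erase i, M j),
            ch (β i t - (t : ℕ) * k / (∏ j ∈ univ.erase i, M j : ℕ)))
    {G : ℕ} (hG : 0 < G) (Φ : ∀ i, Fin G → St C q W o v w i × Fin (M i))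
    (hΦ : ∀ i, Function.Injective (Φ i)) (z : Fin G → Fin R → ℤ)
    (hzW : ∀ i g, ((∑ l, v i l * z g l : ℤ) : ZMod (2 * q * W)) =
      ((W * (Φ i g).1.1.1.val + w i * (Φ i g).1.2 : ℕ) : ZMod (2 * q * W)))
    (hzM : ∀ i g, ((∑ l, v i l * z g l : ℤ) : ZMod (M i)) = (((Φ i g).2 : ℕ) : ZMod (M i)))
    (hK : ∀ i, |(Nat.card {B // C.Has (o B) (v i)} : ℝ) - 2 * q * C.prob (v i)| ≤
      η * C.prob (v i) * (2 * q))
    (hmass : ∀ i, |(G : ℝ) * w i / (((2 * q * W : ℕ) : ℝ) * M i) - C.prob (v i)| ≤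
      η * C.prob (v i)) :
    Nonempty (Comb C η) := by
  classical
  set Q := ∏ i, M i with hQ
  have hQ0 : 0 < Q := Finset.prod_pos fun i _ => hM i
  set P := 2 * q * W * Q with hP
  have hq : 0 < q := NeZero.pos q
  have hP0 : 0 < P := by positivity
  have : NeZero P := ⟨hP0.ne'⟩
  set n : Fin N → ℕ := fun i => ∏ j ∈ univ.erase i, M j with hn
  have hn0 : ∀ i, 0 < n i := fun i => Finset.prod_pos fun j _ => hM j
  have hMn : ∀ i, M i * n i = Q := fun i => Finset.mul_prod_erase univ M (mem_univ i)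
  set βN : Fin N → ℕ → ℝ := fun i k => if h : k < n i then β i ⟨k, h⟩ else 0 with hβN
  have hβN' : ∀ i (k : ℤ), ch ((b i : ℝ) * k ^ 2 / n i) =
      (Real.sqrt (n i) : ℂ)⁻¹ * ∑ t ∈ range (n i), ch (βN i t - (t : ℝ) * k / n i) := fun i k => by
    rw [← Fin.sum_univ_eq_sum_range (fun t => ch (βN i t - (t : ℝ) * k / n i))]
    refine (hβ i k).trans (congrArg _ (Finset.sum_congr rfl fun t _ => ?_))
    rw [show βN i t = β i t from dif_pos t.2]
  set lines : (Fin R → ℤ) → ℕ := fun x => (pick v x).elim 0 n with hlines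
  set step : (Fin R → ℤ) → ℕ := fun x => (pick v x).elim 0 (fun i => 2 * q * W * M i) with hstep
  have hlines' : ∀ i, lines (v i) = n i := fun i => by rw [hlines]; simp only [pick_self hvinj]; rfl
  have hstep' : ∀ i, step (v i) = 2 * q * W * M i := fun i => by
    rw [hstep]; simp only [pick_self hvinj]; rfl
  set own : (Fin R → ℤ) → Finset (ZMod P) :=
    fun x => univ.filter fun y => C.Has (o (blk q W y)) x with hown
  have hmem : ∀ x y, y ∈ own x ↔ C.Has (o (blk q W y)) x := fun x y => by simp [hown]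
  have hdP : 2 * q * W ∣ P := dvd_mul_right _ _
  have hown_neg : ∀ x y, y ∈ own (-x) ↔ -1 - y ∈ own x := fun x y => by
    rw [hmem, hmem, blk_neg hW hdP, Colours.has_anti ho]
  refine ⟨{
    P := P
    G := G
    P_pos := hP0
    G_pos := hG
    u := u
    u_ne := hune
    u_small := ?usmall
    own := own
    own_neg := hown_neg
    own_disjoint := fun x x' _ hex => Finset.disjoint_left.2 fun y hy hy' =>
      hex _ ⟨(hmem x y).1 hy, (hmem x' y).1 hy'⟩
    own_card := ?owncard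
    phase := fun g k l => (B l : ℝ) * ((k : ℝ) ^ 2 / Q) - (z g l : ℝ) * ((k : ℝ) / P)
    lines := lines
    start := fun x g t => ∑ l, x l * z g l + (step x : ℤ) * (t : ℕ)
    β := fun x _ t => (pick v x).elim 0 fun i => βN i t
    expand := ?expand
    cells := ?cells
    cells_mem := ?cellsmem
    mass := ?mass }⟩
  case usmall =>
    intro x hx
    have key : ∀ i, 2 * (w i : ℤ) ≤ (P : ℤ) := fun i => by
      have h : 2 * w i ≤ P := by
        calc 2 * w i ≤ 2 * W := Nat.mul_le_mul_left _ (Nat.le_of_dvd hW (hw i).2)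
          _ = 2 * 1 * W * 1 := by ring
          _ ≤ 2 * q * W * Q := Nat.mul_le_mul (Nat.mul_le_mul_right _
              (Nat.mul_le_mul_left _ hq)) hQ0
      exact_mod_cast h
    rcases lt_or_gt_of_ne (hune x hx) with h | h
    · obtain ⟨i, hi⟩ := hvall (-x) (by rwa [C.prob_neg])
        (by simpa [Finset.sum_neg_distrib] using h)
      have h2 := hu i
      simp only [hi, Pi.neg_apply, neg_mul, Finset.sum_neg_distrib] at h2
      rw [abs_of_neg h]
      linarith [key i]
    · obtain ⟨i, rfl⟩ := hvall x hx h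
      rw [hu i, Nat.abs_cast]
      exact key i
  case owncard =>
    intro x hx
    have key : ∀ i, |((own (v i)).card : ℝ) / P - C.prob (v i)| ≤ η * C.prob (v i) := fun i => by
      rw [show (own (v i)).card = Q * Nat.card {B // C.Has (o B) (v i)} * W from
        card_cells hW rfl (fun B => C.Has (o B) (v i))]
      set K := Nat.card {B // C.Has (o B) (v i)}
      have hQR : (0 : ℝ) < Q := Nat.cast_pos.2 hQ0
      have hqR : (0 : ℝ) < q := Nat.cast_pos.2 hq
      have hWR : (0 : ℝ) < W := Nat.cast_pos.2 hW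
      have e1 : ((Q * K * W : ℕ) : ℝ) / P - C.prob (v i) =
          ((K : ℝ) - 2 * q * C.prob (v i)) / (2 * q) := by
        rw [hP]
        push_cast
        field_simp
      rw [e1, abs_div, abs_of_pos (by positivity : (0 : ℝ) < 2 * q), div_le_iff₀ (by positivity)]
      exact hK i
    rcases lt_or_gt_of_ne (hune x hx) with h | h
    · obtain ⟨i, hi⟩ := hvall (-x) (by rwa [C.prob_neg])
        (by simpa [Finset.sum_neg_distrib] using h)
      have h2 := key i
      simp only [hi, C.prob_neg, card_own_neg own hown_neg] at h2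
      exact h2
    · obtain ⟨i, rfl⟩ := hvall x hx h
      exact key i
  case expand =>
    intro x hx hxu g k
    obtain ⟨i, rfl⟩ := hvall x hx hxu
    rw [line_expand (v i) (z g) B (b i) (M i) (n i) P Q (2 * q * W) (hM i) (hn0 i) (hMn i).symm
      (by rw [mul_assoc, hMn i]) (by positivity) (hvB i) (βN i) k (hβN' i k), hlines' i]
    simp only [pick_self hvinj, Option.elim_some, hstep' i]
    congr 1
    rw [← hlines' i]
    exact (Fin.sum_univ_eq_sum_range (fun t => ch (βN i t -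
      ((∑ l, v i l * z g l + ((2 * q * W * M i : ℕ) : ℤ) * (t : ℕ) : ℤ) : ℝ) * k / P)) _).symm
  case cells =>
    intro x hx hxu g t g' t' s s' hs hs' h
    obtain ⟨i, rfl⟩ := hvall x hx hxu
    rw [hu i, Int.ofNat_lt] at hs hs'
    simp only [hstep' i] at h
    exact cells_inj (hw i).1 (hw i).2 (hMn i) (v i) (Φ i) (hΦ i) z (hzW i) (hzM i) g g'
      (t.2.trans_eq (hlines' i)) (t'.2.trans_eq (hlines' i)) hs hs' h
  case cellsmem =>
    intro x hx hxu g t s hs
    obtain ⟨i, rfl⟩ := hvall x hx hxu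
    rw [hu i, Int.ofNat_lt] at hs
    simp only [hstep' i]
    have h0 : ((2 * q * W * M i : ℕ) : ZMod (2 * q * W)) = 0 :=
      (ZMod.natCast_eq_zero_iff _ _).2 (dvd_mul_right _ _)
    rw [hmem, blk_intCast hdP _ (B := (Φ i g).1.1.1) (mul_lt_of_fin w hw i (Φ i g).1.2 hs) (by
      rw [Int.cast_add, Int.cast_add, Int.cast_mul, Int.cast_natCast, h0, hzW]
      push_cast
      ring)]
    exact (Φ i g).1.1.2
  case mass =>
    intro x hx hxu
    obtain ⟨i, rfl⟩ := hvall x hx hxu
    rw [hlines' i, hu i]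
    have hn1 : (n i : ℝ) ≠ 0 := Nat.cast_ne_zero.2 (hn0 i).ne'
    have hM0 : (M i : ℝ) ≠ 0 := Nat.cast_ne_zero.2 (hM i).ne'
    have e1 : (G : ℝ) * ((w i : ℤ) : ℝ) * n i / P =
        (G : ℝ) * w i / (((2 * q * W : ℕ) : ℝ) * M i) := by
      rw [hP, ← hMn i]
      push_cast
      field_simp
    rw [e1]
    exact hmass i

/-- The number of retained groups is close to its expected value. -/
theorem groups_card_close {R N : ℕ} (C : Colours R) (q W : ℕ) [NeZero q]
    (v : Fin N → Fin R → ℤ) (w : Fin N → ℕ) (o : ZMod (2 * q) → C.Col × Bool) (J : ℕ)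
    {e U : ℝ} (he : 0 ≤ e) (hU0 : 0 ≤ U) (hU : N = 0 → U = J * (2 * q : ℝ) ^ R * W)
    [Fintype (GroupCopies C q W v w o J)] (F : Finset (GroupCopies C q W v w o J))
    (ex : Fin N → ℕ) (hF : Fintype.card (GroupCopies C q W v w o J) ≤ F.card + ∑ i, ex i)
    (hcard : ∀ _ : Fin N, |(Fintype.card (GroupCopies C q W v w o J) : ℝ) - U| ≤ 2 * e * U)
    (hex : ∀ i, (ex i : ℝ) ≤ 3 * e * U) :
    |(F.card : ℝ) - U| ≤ (2 + 3 * N) * e * U := by
  have hX : |(Fintype.card (GroupCopies C q W v w o J) : ℝ) - U| ≤ 2 * e * U := by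
    rcases Nat.eq_zero_or_pos N with h0 | h0
    · subst h0
      have h : Fintype.card (GroupCopies C q W v w o J) = (2 * q) ^ R * W * J := by
        rw [← Nat.card_eq_fintype_card, Nat.card_prod, Nat.card_congr (Equiv.subtypeUnivEquiv
          (p := Good C q W v w o) (fun x (i : Fin 0) => i.elim0)), Nat.card_prod, Nat.card_fun]
        simp
      rw [h, hU rfl]
      push_cast
      rw [show (2 * (q : ℝ)) ^ R * W * J - J * (2 * q : ℝ) ^ R * W = 0 by ring, abs_zero]
      positivity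
    · exact hcard ⟨0, h0⟩
  have h1 : (F.card : ℝ) ≤ Fintype.card (GroupCopies C q W v w o J) :=
    Nat.cast_le.2 (Finset.card_le_univ F)
  have h2 : (Fintype.card (GroupCopies C q W v w o J) : ℝ) ≤
      F.card + (N : ℝ) * (3 * e * U) := by
    refine le_trans (Nat.cast_le.2 hF) ?_
    rw [Nat.cast_add, Nat.cast_sum]
    refine add_le_add le_rfl ?_
    refine le_trans (Finset.sum_le_sum fun i _ => hex i) (le_of_eq ?_)
    rw [Finset.sum_const, Finset.card_univ, nsmul_eq_mul, Fintype.card_fin]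
  have h3 := abs_le.1 hX
  rw [abs_le]
  constructor <;> nlinarith [mul_nonneg (mul_nonneg (Nat.cast_nonneg (α := ℝ) N) he) hU0]

theorem comb (hO : OwnerStatement) : CombStatement := by
  classical
  intro R hR C η hη
  have := C.fintype
  obtain ⟨u, N, v, hune, hvpos, hvinj, hvall⟩ := C.exists_positive
  set w : Fin N → ℕ := fun i => (∑ l, v i l * u l).toNat with hw'
  have hu : ∀ i, ∑ l, v i l * u l = w i := fun i => (Int.toNat_of_nonneg (hvpos i).2.le).symm
  have hw0 : ∀ i, 0 < w i := fun i => Int.lt_toNat.2 (by simpa using (hvpos i).2)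
  have hprim : ∀ i, ∃ ξ : Fin R → ℤ, ∑ l, v i l * ξ l = 1 := fun i =>
    let ⟨c, hc⟩ := C.mem_of_prob_pos (hvpos i).1
    C.primitive c _ hc
  have hdist : ∀ i j, i ≠ j → v i ≠ v j ∧ v i ≠ -v j := by
    refine fun i j hij => ⟨fun h => hij (hvinj h), fun h => ?_⟩
    have h1 := (hvpos i).2
    simp only [h, Pi.neg_apply, neg_mul, Finset.sum_neg_distrib] at h1
    linarith [(hvpos j).2]
  choose ξ hξ using hprim
  choose A hA0 hA using exists_orthogonal v (fun i => ⟨ξ i, hξ i⟩) hdist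
  set W := 2 * ∏ i, w i with hWdef
  have hW : 0 < W := Nat.mul_pos two_pos (Finset.prod_pos fun i _ => hw0 i)
  have hw : ∀ i, 0 < w i ∧ w i ∣ W := fun i =>
    ⟨hw0 i, dvd_mul_of_dvd_right (Finset.dvd_prod_of_mem w (mem_univ i)) 2⟩
  set p : Fin N → ℝ := fun i => C.prob (v i) with hp
  have hp0 : ∀ i, 0 < p i := fun i => (hvpos i).1
  set Pp := ∏ i, p i with hPp
  have hPp0 : 0 < Pp := Finset.prod_pos fun i _ => hp0 i
  have hPp1 : Pp ≤ 1 := Finset.prod_le_one (fun i _ => (hp0 i).le) fun i _ => C.prob_le_one _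
  have hPpp : ∀ i, Pp ≤ p i := fun i => by
    rw [hPp, ← Finset.mul_prod_erase univ p (mem_univ i)]
    exact mul_le_of_le_one_right (hp0 i).le
      (Finset.prod_le_one (fun j _ => (hp0 j).le) fun j _ => C.prob_le_one _)
  set η' := min η 1 with hη'
  have hη'0 : 0 < η' := lt_min hη one_pos
  have hη'1 : η' ≤ 1 := min_le_right _ _
  set e := η' / (40 * ((N : ℝ) + 1)) with he
  have he0 : 0 < e := by positivity
  have heη : 40 * ((N : ℝ) + 1) * e = η' := by rw [he]; field_simp
  have hN0 : (0 : ℝ) ≤ N := Nat.cast_nonneg _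
  have heη' : 40 * e ≤ η' := by nlinarith [mul_nonneg hN0 he0.le]
  set η₀ := e * Pp with hη₀
  have hη₀0 : 0 < η₀ := mul_pos he0 hPp0
  have hη₀p : ∀ i, η₀ ≤ e * p i := fun i => mul_le_mul_of_nonneg_left (hPpp i) he0.le
  have hη₀e : η₀ ≤ e := mul_le_of_le_one_right he0.le hPp1
  obtain ⟨q₀, hq₀⟩ := hO (Fin N) R hR C v (fun i => ⟨ξ i, hξ i⟩) hdist hp0 w W hW hw η₀ hη₀0
  obtain ⟨q, hqq, hq⟩ := Nat.exists_infinite_primes q₀
  have : NeZero q := ⟨hq.pos.ne'⟩
  obtain ⟨o, ho, hoK, hoN⟩ := hq₀ q hqq hq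
  have hqR : (0 : ℝ) < q := Nat.cast_pos.2 hq.pos
  have hwR : ∀ i, (0 : ℝ) < w i := fun i => Nat.cast_pos.2 (hw0 i)
  have hWR : (0 : ℝ) < W := Nat.cast_pos.2 hW
  set μ : Fin N → ℝ := fun i =>
    w i * (2 * q : ℝ) ^ (R - 1) * ∏ j ∈ univ.erase i, p j with hμ
  have hμ0 : ∀ i, 0 < μ i := fun i => by
    have h2 : 0 < ∏ j ∈ univ.erase i, p j := Finset.prod_pos fun j _ => hp0 j
    have := hwR i
    positivity
  set L := 2 * q * W * ∏ i, ∏ j, (if i = j then 1 else (∑ l, v i l * A j l).natAbs) with hL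
  have hL0 : 0 < L := Nat.mul_pos (by have := hq.pos; positivity)
    (Finset.prod_pos fun i _ => Finset.prod_pos fun j _ => by
      split_ifs with h
      · exact one_pos
      · exact Int.natAbs_pos.2 (hA j i h))
  obtain ⟨S₀, hS₀⟩ := P110.Full.moduli N μ hμ0 η₀ hη₀0 L hL0
  obtain ⟨J, hJ⟩ := exists_nat_ge (max S₀ 1)
  obtain ⟨M, hMp, hMc⟩ := hS₀ J ((le_max_left _ _).trans hJ)
  have hJ0 : (0 : ℝ) < J := lt_of_lt_of_le one_pos ((le_max_right _ _).trans hJ)
  have hmL : 2 * q * W ∣ L := dvd_mul_right _ _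
  have hm : ∀ i, (2 * q * W).Coprime (M i) := fun i => by
    have h := ((hMp i).2.1.of_dvd hmL).gcd_eq
    rw [Nat.gcd_one_left] at h
    exact Nat.Coprime.symm h
  have h1 : ((∏ i, M i : ℕ) : ZMod (2 * q * W)) = 1 := by
    rw [Nat.cast_prod]
    refine Finset.prod_eq_one fun i _ => ?_
    rw [← Nat.cast_one, ZMod.natCast_eq_natCast_iff]
    exact (hMp i).2.1.of_dvd hmL
  obtain ⟨B, b, β, hvB, hβ⟩ := exists_carrier P110.Full.gauss v A hA0 L
    (dvd_trans ⟨q * W, by ring⟩ hmL) (fun i j hij => by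
      refine dvd_trans ?_ (dvd_mul_left _ _)
      refine dvd_trans ?_ (Finset.dvd_prod_of_mem _ (mem_univ i))
      refine dvd_trans ?_ (Finset.dvd_prod_of_mem _ (mem_univ j))
      rw [if_neg hij]) M (fun i => (hMp i).2.1) hMc
  obtain ⟨F, d, Φ, hΦ, hFcard, -⟩ := exists_groups (fun i => St C q W o v w i)
    (fun i (y : GroupCopies C q W v w o J) => startOf hW v w hw o i y.1) M
  -- sizes
  set U : ℝ := J * (2 * q : ℝ) ^ R * W * Pp with hU
  have hU0 : 0 < U := by positivity
  have hUeq : ∀ i, p i * (2 * q * W : ℕ) * ((J : ℝ) * μ i) = U * w i := fun i => by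
    rw [hU, hPp, ← Finset.mul_prod_erase univ p (mem_univ i),
      show R = R - 1 + 1 by omega, pow_succ]
    simp only [hμ]
    push_cast
    ring
  have hdivc : ∀ i, ((W / w i : ℕ) : ℝ) = (W : ℝ) / w i := fun i =>
    Nat.cast_div (hw i).2 (hwR i).ne'
  have he12 : e ≤ 1 / 2 := by nlinarith
  have hcls := fun i => class_counts hW v w hw o J (M i) i (hμ0 i) he0.le hη₀0.le (hp0 i)
    (hη₀p i) hη₀e he12 (U := U) (by
      rw [hdivc]
      have h := hUeq i
      have := (hwR i).ne'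
      field_simp
      push_cast at h
      linear_combination -h) (hMp i).2.2.1 (hMp i).2.2.2 (hoK i) (hoN i)
  have hGU : |(F.card : ℝ) - U| ≤ (2 + 3 * N) * e * U :=
    groups_card_close C q W v w o J he0.le hU0.le
      (fun h0 => by subst h0; rw [hU, hPp, Fintype.prod_empty, mul_one])
      F (fun i => ∑ s : St C q W o v w i, ((univ.filter fun y : GroupCopies C q W v w o J =>
        startOf hW v w hw o i y.1 = s).card - M i))
      hFcard (fun i => (hcls i).2.1) (fun i => (hcls i).2.2)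
  have haη : (2 + 3 * N) * e + 2 * η₀ ≤ η' := by nlinarith [mul_nonneg hN0 he0.le]
  have ha1 : (2 + 3 * N) * e < 1 := by nlinarith
  have hG0 : 0 < F.card := by
    have : (0 : ℝ) < F.card := by nlinarith [(abs_le.1 hGU).1]
    exact_mod_cast this
  -- the groups
  set grp : Fin F.card → {x // x ∈ F} := ⇑F.equivFin.symm with hgrp
  choose z hz using fun g : Fin F.card => exists_residues (W := W) v ξ hξ M hm hMc h1 u
    (grp g).1.1.1 (fun i => ((Φ i (Sum.inl (grp g))).2 : ℕ))
  refine comb_of_data C hW o ho u v hune hvinj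
    hvall w hu hw M (fun i => (hMp i).1) B b β hvB hβ hG0
    (fun i g => Φ i (Sum.inl (grp g)))
    (fun i g g' h => F.equivFin.symm.injective (Sum.inl_injective ((Φ i).injective h))) z
    (fun i g => ?_) (fun i g => (hz g i).2) (fun i => ?_) fun i => ?_
  · rw [(hz g i).1, hΦ i (grp g), ← startOf_cast hW v w hw o i (grp g).1.1, hu i]
    push_cast
    rfl
  · refine (hoK i).trans ?_
    refine mul_le_mul_of_nonneg_right ?_ (by positivity)
    exact (hη₀p i).trans (mul_le_mul_of_nonneg_right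
      (le_trans (by linarith) (min_le_left η 1)) (hp0 i).le)
  · exact (mass_close (hUeq i) hGU (hwR i) (by exact_mod_cast Nat.mul_pos (Nat.mul_pos two_pos hq.pos) hW) (mul_pos hJ0 (hμ0 i)) (hp0 i) hη₀0.le
      hη'1 (by positivity) haη (hMp i).2.2.1 (hMp i).2.2.2).trans
        (mul_le_mul_of_nonneg_right (min_le_left η 1) (hp0 i).le)

end Vale.Agent.P130.Full.Core
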