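import Vale.Agent.P110.Full.Osc
import Vale.Agent.P130.Full.Core.Statements

/-!
The power spectrum of a line is flat on its arc: the interior is a chirp estimate and the total
mass takes care of the rest.
-/

noncomputable section

namespace Vale.Agent.P130.Full.Core

open Finset MeasureTheory
open Vale.Agent.P110.Full (ch)

lemma integral_ch_diff (s t : ℕ) :
    ∫ u in (0 : ℝ)..1, ch (((s : ℝ) - t) * u) = if s = t then 1 else 0 := by
  split_ifs with h
  · subst h
    simp [P110.Full.ch_zero]
  have hc : ((2 * Real.pi * ((s : ℝ) - t) : ℝ) : ℂ) * Complex.I ≠ 0 :=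
    mul_ne_zero (Complex.ofReal_ne_zero.2 (mul_ne_zero (by positivity)
      (sub_ne_zero.2 (by exact_mod_cast h)))) Complex.I_ne_zero
  have e : ∀ u : ℝ, ch (((s : ℝ) - t) * u) =
      Complex.exp (((2 * Real.pi * ((s : ℝ) - t) : ℝ) : ℂ) * Complex.I * u) := by
    intro u; rw [ch]; congr 1; push_cast; ring
  rw [intervalIntegral.integral_congr fun u _ => e u, integral_exp_mul_complex hc]
  have h1 : Complex.exp (((2 * Real.pi * ((s : ℝ) - t) : ℝ) : ℂ) * Complex.I * (1 : ℝ)) = 1 := by
    refine Complex.exp_eq_one_iff.2 ⟨(s : ℤ) - t, ?_⟩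
    push_cast; ring
  rw [h1]
  simp

lemma continuous_line (P w τ : ℕ) : Continuous (line P w τ) := by
  unfold line
  exact continuous_finsetSum _ fun t _ => P110.Full.continuous_ch.comp (by fun_prop)

lemma integral_norm_line_sq (P w τ : ℕ) : ∫ u in (0 : ℝ)..1, ‖line P w τ u‖ ^ 2 = τ := by
  apply Complex.ofReal_injective
  rw [← intervalIntegral.integral_ofReal, Complex.ofReal_natCast]
  obtain ⟨b, hb⟩ : ∃ b : ℕ → ℝ, ∀ t, b t = -((w : ℝ) * (t : ℝ) ^ 2 / (2 * P * τ)) :=
    ⟨_, fun _ => rfl⟩
  have e : ∀ u, ((‖line P w τ u‖ ^ 2 : ℝ) : ℂ) =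
      ∑ s ∈ range τ, ∑ t ∈ range τ, ch (b s - b t) * ch (((s : ℝ) - t) * u) := by
    intro u
    rw [Complex.ofReal_pow, ← Complex.mul_conj', line, map_sum, Finset.sum_mul_sum]
    refine sum_congr rfl fun s _ => sum_congr rfl fun t _ => ?_
    rw [P110.Full.conj_ch, ← P110.Full.ch_add, ← P110.Full.ch_add, hb, hb]
    congr 1
    ring
  have hcont : ∀ s t : ℕ, Continuous fun u : ℝ => ch (b s - b t) * ch (((s : ℝ) - t) * u) :=
    fun s t => continuous_const.mul
      (P110.Full.continuous_ch.comp (continuous_const.mul continuous_id))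
  rw [intervalIntegral.integral_congr fun u _ => e u, intervalIntegral.integral_finsetSum
    fun s _ => (continuous_finsetSum _ fun t _ => hcont s t).intervalIntegrable _ _]
  calc ∑ s ∈ range τ, ∫ u in (0 : ℝ)..1, ∑ t ∈ range τ, ch (b s - b t) * ch (((s : ℝ) - t) * u)
      = ∑ s ∈ range τ, (1 : ℂ) := by
        refine sum_congr rfl fun s hs => ?_
        rw [intervalIntegral.integral_finsetSum fun t _ => (hcont s t).intervalIntegrable _ _]
        simp only [intervalIntegral.integral_const_mul, integral_ch_diff, mul_ite, mul_one,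
          mul_zero, sum_ite_eq, hs, if_true, sub_self, P110.Full.ch_zero]
    _ = _ := by simp

/-- Module Line. -/
theorem line_flat (hC : ChirpStatement) : LineStatement := by
  intro P w hw hwP η₀ hη₀
  obtain ⟨e, he, he1, hele⟩ : ∃ e : ℝ, 0 < e ∧ e ≤ 1 / 4 ∧ 6 * e ≤ η₀ :=
    ⟨min (η₀ / 6) (1 / 4), lt_min (by linarith) (by norm_num), min_le_right _ _,
      by linarith [min_le_left (η₀ / 6) (1 / 4 : ℝ)]⟩
  obtain ⟨T₀, hT₀⟩ := hC e he
  have hP0 : (0 : ℝ) < P := by exact_mod_cast (by omega : 0 < P)
  have hw0 : (0 : ℝ) < w := by exact_mod_cast hw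
  obtain ⟨τ₁, hτ₁⟩ := exists_nat_gt (T₀ * P / w)
  refine ⟨τ₁ + 1, fun τ hτ => ?_⟩
  have hτ0 : (0 : ℝ) < τ := by exact_mod_cast (by omega : 0 < τ)
  have hτT : T₀ * P / w ≤ τ :=
    hτ₁.le.trans (by exact_mod_cast (by omega : τ₁ ≤ τ))
  obtain ⟨c, hc⟩ : ∃ c : ℝ, c = (w : ℝ) / P := ⟨_, rfl⟩
  have hc0 : 0 < c := hc ▸ by positivity
  have hc2 : c ≤ 1 / 2 := by
    rw [hc, div_le_iff₀ hP0]
    have : 2 * (w : ℝ) ≤ P := by exact_mod_cast hwP
    linarith
  set f : ℝ → ℝ := fun u => ‖line P w τ u‖ ^ 2 / τ with hf
  have hfc : Continuous f := ((continuous_line P w τ).norm.pow 2).div_const _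
  have hf0 : ∀ u, 0 ≤ f u := fun u => by simp only [hf]; positivity
  have hchirp : ∀ u ∈ Set.Icc (e * c) ((1 - e) * c), |c * f u - 1| ≤ e := by
    intro u hu
    have h1 := hT₀ τ (c / τ) u (by positivity) (by
      rw [hc]
      rw [div_le_iff₀ hw0] at hτT
      rw [show (w : ℝ) / P / τ * (τ : ℝ) ^ 2 = w * τ / P by field_simp,
        le_div_iff₀ hP0]
      linarith) (by rw [div_mul_cancel₀ _ hτ0.ne']; exact hc2)
      (by rw [div_mul_cancel₀ _ hτ0.ne']; exact hu.1) (by rw [div_mul_cancel₀ _ hτ0.ne']; exact hu.2)
    convert h1 using 3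
    simp only [hf]
    rw [mul_div, div_mul_eq_mul_div]
    congr 3
    unfold line
    congr 1
    refine sum_congr rfl fun t _ => ?_
    rw [hc]
    congr 1
    field_simp
  rw [show (P : ℝ) / w = 1 / c by rw [hc, one_div_div]]
  set I := (Set.Ico (0 : ℝ) ((w : ℝ) / P)).indicator (fun _ => 1 / c) with hI
  have hIint : IntervalIntegrable I volume 0 1 := by
    rw [intervalIntegrable_iff]
    exact intervalIntegrable_const.def'.indicator measurableSet_Ico
  have hfint : IntervalIntegrable f volume 0 1 := hfc.intervalIntegrable _ _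
  have hItot : ∫ u in (0 : ℝ)..1, I u = 1 := by
    rw [intervalIntegral.integral_of_le zero_le_one, ← integral_Icc_eq_integral_Ioc, hI,
      integral_indicator measurableSet_Ico, Measure.restrict_restrict measurableSet_Ico,
      setIntegral_const, Set.inter_eq_left.2 (show Set.Ico (0 : ℝ) ((w : ℝ) / P) ⊆ Set.Icc 0 1 from
        fun x hx => ⟨hx.1, hx.2.le.trans (by rw [← hc]; linarith)⟩), Real.volume_real_Ico_of_le (by positivity),
      smul_eq_mul, sub_zero, ← hc]
    field_simp
  have hftot : ∫ u in (0 : ℝ)..1, f u = 1 := by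
    simp only [hf, intervalIntegral.integral_div, integral_norm_line_sq]
    field_simp
  -- the positive part of `I - f`
  set g := fun u => max (I u - f u) 0 with hg
  have hgint : IntervalIntegrable g volume 0 1 := by
    have := hIint.sub hfint
    rw [intervalIntegrable_iff] at this ⊢
    exact this.pos_part
  have habs : ∀ u, |f u - I u| = f u - I u + 2 * g u := by
    intro u
    simp only [hg]
    rcases le_total (I u) (f u) with h | h
    · rw [max_eq_right (by linarith), abs_of_nonneg (by linarith)]; ring
    · rw [max_eq_left (by linarith), abs_of_nonpos (by linarith)]; ring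
  calc ∫ u in (0 : ℝ)..1, |f u - I u| = ∫ u in (0 : ℝ)..1, (f u - I u + 2 * g u) :=
        intervalIntegral.integral_congr fun u _ => habs u
    _ = 2 * ∫ u in (0 : ℝ)..1, g u := by
        rw [intervalIntegral.integral_add (hfint.sub hIint) (hgint.const_mul 2),
          intervalIntegral.integral_sub hfint hIint, hItot, hftot,
          intervalIntegral.integral_const_mul]
        ring
    _ ≤ 2 * (3 * e) := by
        refine mul_le_mul_of_nonneg_left ?_ two_pos.le
        have hec : e * c ≤ (1 - e) * c := mul_le_mul_of_nonneg_right (by linarith) hc0.le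
        have hc1 : (1 - e) * c ≤ c := mul_le_of_le_one_left hc0.le (by linarith)
        have hec0 : 0 ≤ e * c := by positivity
        have hsub : ∀ {a b : ℝ}, 0 ≤ a → a ≤ b → b ≤ 1 →
            IntervalIntegrable g volume a b := fun ha hab hb =>
          hgint.mono_set (by
            rw [Set.uIcc_of_le hab, Set.uIcc_of_le zero_le_one]
            exact Set.Icc_subset_Icc ha hb)
        have hpiece : ∀ {a b K : ℝ}, 0 ≤ a → a ≤ b → b ≤ 1 → (∀ u ∈ Set.Icc a b, g u ≤ K) →
            ∫ u in a..b, g u ≤ (b - a) * K := fun ha hab hb hK =>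
          (intervalIntegral.integral_mono_on hab (hsub ha hab hb) intervalIntegrable_const
            hK).trans (le_of_eq (by simp))
        have hgc : ∀ u, g u ≤ 1 / c := by
          intro u
          simp only [hg, hI, Set.indicator]
          refine max_le ?_ (by positivity)
          have h1 := hf0 u
          have h2 : (0 : ℝ) ≤ 1 / c := by positivity
          split_ifs <;> linarith
        rw [← intervalIntegral.integral_add_adjacent_intervals
            (hsub le_rfl hec0 (by linarith)) (hsub hec0 (by linarith) le_rfl),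
          ← intervalIntegral.integral_add_adjacent_intervals
            (hsub hec0 hec (by linarith)) (hsub (hec0.trans hec) (by linarith) le_rfl),
          ← intervalIntegral.integral_add_adjacent_intervals
            (hsub (hec0.trans hec) hc1 (by linarith)) (hsub hc0.le (by linarith) le_rfl)]
        have p1 := hpiece le_rfl hec0 (by linarith) (fun u _ => hgc u)
        have p2 := hpiece (K := e / c) hec0 hec (by linarith) (fun u hu => by
          have h1 := (abs_le.1 (hchirp u hu)).1
          simp only [hg, hI, Set.indicator]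
          refine max_le ?_ (by positivity)
          split_ifs
          · rw [le_div_iff₀ hc0, sub_mul, div_mul_cancel₀ _ hc0.ne']
            linarith
          · have := hf0 u
            have : 0 ≤ e / c := by positivity
            linarith)
        have p3 := hpiece (hec0.trans hec) hc1 (by linarith) (fun u _ => hgc u)
        have p4 := hpiece (K := 0) hc0.le (by linarith : c ≤ 1) le_rfl (fun u hu => by
          simp only [hg, hI]
          rw [Set.indicator_of_notMem (fun h => absurd h.2 (not_lt.2 (hc ▸ hu.1)))]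
          exact max_le (by linarith [hf0 u]) le_rfl)
        have q1 : (e * c - 0) * (1 / c) = e := by field_simp; ring
        have q2 : ((1 - e) * c - e * c) * (e / c) = (1 - 2 * e) * e := by field_simp; ring
        have q3 : (c - (1 - e) * c) * (1 / c) = e := by field_simp; ring
        have q4 : (1 - 2 * e) * e ≤ e := mul_le_of_le_one_left he.le (by linarith)
        linarith
    _ ≤ η₀ := by linarith

end Vale.Agent.P130.Full.Core
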