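import Mathlib
import Vale.Agent.P130.Full.Statements
import Vale.Agent.P130.Full.Core.Statements
import Vale.Agent.P110.Full.Main

/-!
Composition of the model and the carrier: flat families exist.
-/

noncomputable section

namespace Vale.Agent.P130.Full.Core

open Finset MeasureTheory
open Vale.Agent.P110.Full (ch ch_add conj_ch norm_ch)

theorem continuous_ch : Continuous ch := by unfold ch; fun_prop

theorem continuous_expSum {m : ℕ} (w : Fin m → ℂ) :
    Continuous fun u : ℝ => ∑ j, w j * ch ((j : ℕ) * u) :=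
  continuous_finsetSum _ fun j _ => continuous_const.mul (continuous_ch.comp (by fun_prop))

theorem integral_ch_int (k : ℤ) : ∫ u in (0 : ℝ)..1, ch ((k : ℝ) * u) = if k = 0 then 1 else 0 := by
  split_ifs with h
  · subst h; simp [ch]
  · have hc : ((k : ℂ) * (2 * Real.pi) * Complex.I) ≠ 0 := by
      simp [h, Real.pi_ne_zero]
    have : ∀ u : ℝ, ch ((k : ℝ) * u) = Complex.exp ((k : ℂ) * (2 * Real.pi) * Complex.I * u) :=
      fun u => by rw [ch]; congr 1; push_cast; ring
    simp only [this]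
    rw [integral_exp_mul_complex hc, Complex.ofReal_zero, mul_zero, Complex.exp_zero,
      Complex.ofReal_one, mul_one,
      show (k : ℂ) * (2 * Real.pi) * Complex.I = (k : ℂ) * (2 * Real.pi * Complex.I) by ring,
      Complex.exp_int_mul_two_pi_mul_I, sub_self, zero_div]

theorem integral_normSq_expSum {m : ℕ} (w : Fin m → ℂ) :
    ∫ u in (0 : ℝ)..1, ‖∑ j, w j * ch ((j : ℕ) * u)‖ ^ 2 = ∑ j, ‖w j‖ ^ 2 := by
  have h1 : ∀ u : ℝ, ((‖∑ j, w j * ch ((j : ℕ) * u)‖ ^ 2 : ℝ) : ℂ) =
      ∑ j, ∑ l, (w j * (starRingEnd ℂ) (w l)) * ch ((((j : ℕ) : ℤ) - ((l : ℕ) : ℤ) : ℤ) * u) := by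
    intro u
    rw [← Complex.normSq_eq_norm_sq, ← Complex.mul_conj, map_sum, Finset.sum_mul_sum]
    refine Finset.sum_congr rfl fun j _ => Finset.sum_congr rfl fun l _ => ?_
    rw [map_mul, conj_ch, mul_mul_mul_comm, ← ch_add]
    congr 2
    push_cast
    ring
  have hR : ((∫ u in (0 : ℝ)..1, ‖∑ j, w j * ch ((j : ℕ) * u)‖ ^ 2 : ℝ) : ℂ) =
      ((∑ j, ‖w j‖ ^ 2 : ℝ) : ℂ) := by
    rw [← intervalIntegral.integral_ofReal]
    simp only [h1]
    have hi : ∀ (c : ℂ) (k : ℤ), IntervalIntegrable (fun u : ℝ => c * ch ((k : ℝ) * u)) volume 0 1 :=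
      fun c k => (continuous_const.mul (continuous_ch.comp (by fun_prop))).intervalIntegrable 0 1
    rw [intervalIntegral.integral_finsetSum fun j _ => IntervalIntegrable.congr (fun u _ =>
      Finset.sum_apply u _ _) (IntervalIntegrable.sum (univ : Finset (Fin m)) fun l _ =>
        hi (w j * (starRingEnd ℂ) (w l)) (((j : ℕ) : ℤ) - ((l : ℕ) : ℤ)))]
    simp only [Complex.ofReal_sum, Complex.ofReal_pow]
    refine Finset.sum_congr rfl fun j _ => ?_
    rw [intervalIntegral.integral_finsetSum fun l _ => hi _ _, Finset.sum_eq_single j]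
    · rw [intervalIntegral.integral_const_mul, integral_ch_int, if_pos (sub_self _), mul_one,
        Complex.mul_conj']
    · intro l _ hl
      rw [intervalIntegral.integral_const_mul, integral_ch_int,
        if_neg (by simp [sub_eq_zero, Fin.val_inj, Ne.symm hl]), mul_zero]
    · simp
  exact_mod_cast hR

theorem integrable_sum {ι : Type} (S : Finset ι) {f : ι → ℝ → ℝ}
    (h : ∀ i, IntervalIntegrable (f i) volume 0 1) :
    IntervalIntegrable (fun u => ∑ i ∈ S, f i u) volume 0 1 := by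
  rw [show (fun u => ∑ i ∈ S, f i u) = ∑ i ∈ S, f i from
    funext fun u => (Finset.sum_apply _ _ _).symm]
  exact IntervalIntegrable.sum _ fun i _ => h i

theorem abs_sq_sub_sq_le (a b : ℂ) {t : ℝ} (ht : 0 < t) :
    |‖a‖ ^ 2 - ‖b‖ ^ 2| ≤ ‖a - b‖ ^ 2 * (1 + 1 / t) + t * ‖b‖ ^ 2 := by
  have h1 := abs_norm_sub_norm_le a b
  have ha := norm_nonneg a
  have hb := norm_nonneg b
  have hab := norm_le_norm_add_norm_sub' a b
  have h2 : |‖a‖ ^ 2 - ‖b‖ ^ 2| ≤ ‖a - b‖ * (‖a - b‖ + 2 * ‖b‖) := by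
    rw [sq_sub_sq, abs_mul, mul_comm, abs_of_nonneg (by linarith : 0 ≤ ‖a‖ + ‖b‖)]
    exact mul_le_mul h1 (by linarith) (by linarith) (norm_nonneg _)
  refine h2.trans ?_
  have h3 : 2 * ‖a - b‖ * ‖b‖ ≤ ‖a - b‖ ^ 2 / t + t * ‖b‖ ^ 2 := by
    rw [div_add' _ _ _ ht.ne', le_div_iff₀ ht]
    nlinarith [sq_nonneg (‖a - b‖ - t * ‖b‖)]
  rw [mul_add (‖a - b‖ ^ 2), mul_one, mul_one_div]
  nlinarith

/-- A signal close in mean square to exclusive frequencies with flat spectra on disjoint sets of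
almost full measure has an almost flat spectrum. -/
theorem spectralError_le {m : ℕ} (hm : 0 < m) {ι : Type} [DecidableEq ι] (Act : Finset ι)
    (γ : ι → ℂ) (p : ι → ℝ) (E : ι → Set ℝ) (y : ι → Fin m → ℝ) (w : Fin m → ℂ) {e η s t ε : ℝ}
    (hs : 0 < s) (ht : 0 < t)
    (hp : ∀ v ∈ Act, 0 < p v ∧ p v ≤ 1 ∧ ‖γ v‖ ^ 2 = p v)
    (hsum : 1 - ε ≤ ∑ v ∈ Act, p v)
    (hE : ∀ v, MeasurableSet (E v))
    (hd : ∀ v ∈ Act, ∀ v' ∈ Act, v ≠ v' → Disjoint (E v) (E v'))
    (herr : ∀ v ∈ Act, spectralError (fun j => ch (y v j)) ((E v).indicator fun _ => 1 / p v) ≤ η)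
    (hwm : ∑ j, ‖w j - ∑ v ∈ Act, γ v * ch (y v j)‖ ^ 2 ≤ e * m) (hw : ∀ j, ‖w j‖ = 1) :
    spectralError w (fun _ => 1) ≤ e * (1 + 1 / t) + t * (2 + 2 * e) + Act.card * η +
      (Act.card : ℝ) ^ 2 * (s + η / s) + (ε + Act.card * η) := by
  have hmR : (0 : ℝ) < m := Nat.cast_pos.2 hm
  set M : Fin m → ℂ := fun j => ∑ v ∈ Act, γ v * ch (y v j) with hM
  set D : ι → ℝ → ℂ := fun v u => ∑ j, ch (y v j) * ch ((j : ℕ) * u) with hD
  set Pw : ℝ → ℂ := fun u => ∑ j, w j * ch ((j : ℕ) * u) with hPw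
  set PM : ℝ → ℂ := fun u => ∑ j, M j * ch ((j : ℕ) * u) with hPM
  set er : ι → ℝ → ℝ := fun v u => |‖D v u‖ ^ 2 / m - (E v).indicator (fun _ => 1 / p v) u| with her
  have hDc : ∀ v, Continuous (D v) := fun v => continuous_expSum fun j => ch (y v j)
  have hDsq : ∀ v, ∫ u in (0 : ℝ)..1, ‖D v u‖ ^ 2 / m = 1 := fun v => by
    rw [intervalIntegral.integral_div]
    simp only [hD]
    rw [integral_normSq_expSum fun j => ch (y v j)]
    simp [norm_ch, hmR.ne']
  have hDint : ∀ v, IntervalIntegrable (fun u => ‖D v u‖ ^ 2 / m) volume 0 1 := fun v =>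
    (((hDc v).norm.pow 2).div_const _).intervalIntegrable 0 1
  have hIint : ∀ v (c : ℝ), IntervalIntegrable ((E v).indicator fun _ => c) volume 0 1 := fun v c => by
    rw [intervalIntegrable_iff]
    exact intervalIntegrable_const.def'.indicator (hE v)
  have heint : ∀ v, IntervalIntegrable (er v) volume 0 1 := fun v =>
    ((hDint v).sub (hIint v _)).abs
  have hPMsum : ∀ u, PM u = ∑ v ∈ Act, γ v * D v u := fun u => by
    simp only [hPM, hM, hD, Finset.sum_mul, Finset.mul_sum, mul_assoc]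
    exact Finset.sum_comm
  have hg : ∀ v ∈ Act, ‖γ v‖ ≤ 1 := fun v hv => by
    nlinarith [(hp v hv).2.2, (hp v hv).2.1, norm_nonneg (γ v)]
  -- pointwise decomposition of the model part
  have hpt : ∀ u, |‖PM u‖ ^ 2 / m - ∑ v ∈ Act, (E v).indicator (fun _ => (1 : ℝ)) u| ≤
      ∑ v ∈ Act, er v u + ∑ v ∈ Act, ∑ v' ∈ Act.erase v,
        (s / 2 * (‖D v u‖ ^ 2 / m + ‖D v' u‖ ^ 2 / m) + (er v u + er v' u) / (2 * s)) := by
    intro u
    have hexp : ‖PM u‖ ^ 2 = ∑ v ∈ Act, ∑ v' ∈ Act,
        ((γ v * D v u) * (starRingEnd ℂ) (γ v' * D v' u)).re := by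
      rw [hPMsum, ← Complex.normSq_eq_norm_sq, ← Complex.ofReal_re (Complex.normSq _),
        ← Complex.mul_conj, map_sum, Finset.sum_mul_sum, Complex.re_sum]
      simp only [Complex.re_sum]
    rw [hexp, Finset.sum_div, ← Finset.sum_sub_distrib]
    refine (Finset.abs_sum_le_sum_abs _ _).trans ?_
    rw [← Finset.sum_add_distrib]
    refine Finset.sum_le_sum fun v hv => ?_
    rw [← Finset.add_sum_erase _ _ hv, add_div, add_sub_right_comm, Finset.sum_div]
    refine (abs_add_le _ _).trans (add_le_add ?_ ?_)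
    · obtain ⟨hp0, hp1, hγ⟩ := hp v hv
      rw [Complex.mul_conj, Complex.ofReal_re, Complex.normSq_eq_norm_sq, norm_mul, mul_pow, hγ,
        show (E v).indicator (fun _ => (1 : ℝ)) u = p v * (E v).indicator (fun _ => 1 / p v) u by
          by_cases hu : u ∈ E v <;> simp [hu, hp0.ne'],
        mul_div_assoc, ← mul_sub, abs_mul, abs_of_pos hp0]
      exact mul_le_of_le_one_left (abs_nonneg _) hp1
    · refine (Finset.abs_sum_le_sum_abs _ _).trans (Finset.sum_le_sum fun v' hv' => ?_)
      obtain ⟨hne, hv'⟩ := mem_erase.1 hv'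
      rw [abs_div, abs_of_pos hmR]
      refine le_trans (b := ‖D v u‖ * ‖D v' u‖ / m) ?_ ?_
      · refine div_le_div_of_nonneg_right ((Complex.abs_re_le_norm _).trans ?_) hmR.le
        rw [norm_mul, Complex.norm_conj, norm_mul, norm_mul, mul_mul_mul_comm]
        exact mul_le_of_le_one_left (by positivity)
          (mul_le_one₀ (hg v hv) (norm_nonneg _) (hg v' hv'))
      · have key : ∀ x z ex : ℝ, x ^ 2 / m ≤ ex →
            x * z / m ≤ s / 2 * (z ^ 2 / m) + ex / (2 * s) := fun x z ex hx => by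
          have : 0 ≤ (x / (2 * s) - z / 2) ^ 2 * (2 * s) / m := by positivity
          have h2 : (x / (2 * s) - z / 2) ^ 2 * (2 * s) / m =
              x ^ 2 / m / (2 * s) - x * z / m + s / 2 * (z ^ 2 / m) := by
            field_simp
            ring
          linarith [div_le_div_of_nonneg_right hx (by positivity : (0 : ℝ) ≤ 2 * s)]
        have h0 : ∀ v, 0 ≤ er v u / (2 * s) ∧ 0 ≤ s / 2 * (‖D v u‖ ^ 2 / m) := fun v =>
          ⟨div_nonneg (abs_nonneg _) (by positivity), by positivity⟩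
        rw [mul_add, add_div]
        by_cases hu : u ∈ E v
        · have hu' : u ∉ E v' := fun h => Set.disjoint_left.1 (hd v hv v' hv' hne.symm) hu h
          have := key ‖D v' u‖ ‖D v u‖ (er v' u) (le_of_le_of_eq (le_abs_self _) (by simp [her, hu']))
          rw [mul_comm ‖D v' u‖] at this
          linarith [h0 v, h0 v']
        · have := key ‖D v u‖ ‖D v' u‖ (er v u) (le_of_le_of_eq (le_abs_self _) (by simp [her, hu]))
          linarith [h0 v, h0 v']
  -- the target of the model part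
  have htar : ∀ u, |∑ v ∈ Act, (E v).indicator (fun _ => (1 : ℝ)) u - 1| =
      1 - ∑ v ∈ Act, (E v).indicator (fun _ => (1 : ℝ)) u := fun u => by
    rw [abs_of_nonpos, neg_sub]
    rw [sub_nonpos]
    by_cases hu : ∃ v ∈ Act, u ∈ E v
    · obtain ⟨v, hv, hu⟩ := hu
      rw [Finset.sum_eq_single_of_mem v hv fun v' hv' hne =>
        Set.indicator_of_notMem (fun h => Set.disjoint_left.1 (hd v hv v' hv' hne.symm) hu h) _]
      simp [hu]
    · push Not at hu
      rw [Finset.sum_eq_zero fun v hv => Set.indicator_of_notMem (hu v hv) _]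
      exact zero_le_one
  set Tg : ℝ → ℝ := fun u => ∑ v ∈ Act, (E v).indicator (fun _ => (1 : ℝ)) u with hTg
  have hTgint : IntervalIntegrable Tg volume 0 1 := by
    rw [show Tg = ∑ v ∈ Act, (E v).indicator fun _ => (1 : ℝ) from
      funext fun u => (Finset.sum_apply _ _ _).symm]
    exact IntervalIntegrable.sum _ fun v _ => hIint v 1
  have hTlow : 1 - ε - Act.card * η ≤ ∫ u in (0 : ℝ)..1, Tg u := by
    rw [hTg, intervalIntegral.integral_finsetSum fun v _ => hIint v 1]
    have h : ∀ v ∈ Act, p v - η ≤ ∫ u in (0 : ℝ)..1, (E v).indicator (fun _ => (1 : ℝ)) u := by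
      intro v hv
      obtain ⟨hp0, hp1, -⟩ := hp v hv
      have h1 : ∫ u in (0 : ℝ)..1, ‖D v u‖ ^ 2 / m ≤
          (∫ u in (0 : ℝ)..1, (E v).indicator (fun _ => 1 / p v) u) + η := by
        refine le_trans ?_ (add_le_add le_rfl (herr v hv))
        rw [spectralError, ← intervalIntegral.integral_add (hIint v _) (heint v)]
        exact intervalIntegral.integral_mono_on zero_le_one (hDint v) ((hIint v _).add (heint v))
          fun u _ => by linarith [le_abs_self (‖D v u‖ ^ 2 / m -
            (E v).indicator (fun _ => 1 / p v) u)]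
      rw [hDsq] at h1
      have h2 : ∫ u in (0 : ℝ)..1, (E v).indicator (fun _ => (1 : ℝ)) u =
          p v * ∫ u in (0 : ℝ)..1, (E v).indicator (fun _ => 1 / p v) u := by
        rw [← intervalIntegral.integral_const_mul]
        congr 1
        funext u
        by_cases hu : u ∈ E v <;> simp [hu, hp0.ne']
      have hη : 0 ≤ η := le_trans
        (intervalIntegral.integral_nonneg zero_le_one fun u _ => abs_nonneg _) (herr v hv)
      rw [h2]
      nlinarith
    refine le_trans ?_ (Finset.sum_le_sum h)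
    rw [Finset.sum_sub_distrib, Finset.sum_const, nsmul_eq_mul]
    linarith
  have hPwint : IntervalIntegrable (fun u => ‖Pw u - PM u‖ ^ 2) volume 0 1 :=
    (((continuous_expSum w).sub (continuous_expSum M)).norm.pow 2).intervalIntegrable 0 1
  have hPMint : IntervalIntegrable (fun u => ‖PM u‖ ^ 2) volume 0 1 :=
    ((continuous_expSum M).norm.pow 2).intervalIntegrable 0 1
  have hdiff : ∫ u in (0 : ℝ)..1, ‖Pw u - PM u‖ ^ 2 ≤ e * m := by
    have : ∀ u, Pw u - PM u = ∑ j, (w j - M j) * ch ((j : ℕ) * u) := fun u => by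
      simp only [hPw, hPM, sub_mul, Finset.sum_sub_distrib]
    simp only [this]
    rw [integral_normSq_expSum fun j => w j - M j]
    exact hwm
  have hPMle : ∫ u in (0 : ℝ)..1, ‖PM u‖ ^ 2 ≤ (2 + 2 * e) * m := by
    simp only [hPM]
    rw [integral_normSq_expSum M]
    refine le_trans (Finset.sum_le_sum fun j _ =>
      (?_ : _ ≤ 2 + 2 * ‖w j - M j‖ ^ 2)) ?_
    · have h1 : ‖M j‖ ≤ 1 + ‖w j - M j‖ := by
        have := norm_le_norm_add_norm_sub' (M j) (w j)
        rw [hw, norm_sub_rev] at this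
        exact this
      nlinarith [norm_nonneg (M j), norm_nonneg (w j - M j), sq_nonneg (1 - ‖w j - M j‖)]
    · rw [Finset.sum_add_distrib, ← Finset.mul_sum, Finset.sum_const, Finset.card_univ,
        Fintype.card_fin, nsmul_eq_mul]
      linarith [hwm]
  set F : ℝ → ℝ := fun u => ‖Pw u - PM u‖ ^ 2 * ((1 + 1 / t) / m) + ‖PM u‖ ^ 2 * (t / m) +
    (∑ v ∈ Act, er v u + ∑ v ∈ Act, ∑ v' ∈ Act.erase v,
        (s / 2 * (‖D v u‖ ^ 2 / m + ‖D v' u‖ ^ 2 / m) + (er v u + er v' u) / (2 * s))) +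
    (1 - Tg u) with hF
  have hX : IntervalIntegrable (fun u => ∑ v ∈ Act, er v u + ∑ v ∈ Act, ∑ v' ∈ Act.erase v,
      (s / 2 * (‖D v u‖ ^ 2 / m + ‖D v' u‖ ^ 2 / m) + (er v u + er v' u) / (2 * s))) volume 0 1 := by
    refine IntervalIntegrable.add ?_ ?_
    · exact integrable_sum Act heint
    · exact integrable_sum Act fun v => integrable_sum (Act.erase v) fun v' =>
          (((hDint v).add (hDint v')).const_mul _).add (((heint v).add (heint v')).div_const _)
  refine le_trans (b := ∫ u in (0 : ℝ)..1, F u) ?_ ?_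
  · rw [spectralError]
    refine intervalIntegral.integral_mono_on zero_le_one ?_ ?_ fun u _ => ?_
    · exact ((((continuous_expSum w).norm.pow 2).div_const _).intervalIntegrable 0 1).sub
        intervalIntegrable_const |>.abs
    · exact (((hPwint.mul_const _).add (hPMint.mul_const _)).add hX).add
        (intervalIntegrable_const.sub hTgint)
    · have h1 : |‖Pw u‖ ^ 2 / m - ‖PM u‖ ^ 2 / m| ≤
          ‖Pw u - PM u‖ ^ 2 * ((1 + 1 / t) / m) + ‖PM u‖ ^ 2 * (t / m) := by
        rw [← sub_div, abs_div, abs_of_pos hmR]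
        refine (div_le_div_of_nonneg_right (abs_sq_sub_sq_le _ _ ht) hmR.le).trans (le_of_eq ?_)
        ring
      have h2 := hpt u
      have h3 := htar u
      have h4 := abs_add_three (‖Pw u‖ ^ 2 / m - ‖PM u‖ ^ 2 / m) (‖PM u‖ ^ 2 / m - Tg u) (Tg u - 1)
      rw [show ‖Pw u‖ ^ 2 / m - ‖PM u‖ ^ 2 / m + (‖PM u‖ ^ 2 / m - Tg u) + (Tg u - 1) =
        ‖Pw u‖ ^ 2 / m - 1 by ring] at h4
      simp only [hF]
      linarith
  · simp only [hF]
    rw [intervalIntegral.integral_add (((hPwint.mul_const _).add (hPMint.mul_const _)).add hX)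
        (intervalIntegrable_const.sub hTgint),
      intervalIntegral.integral_add ((hPwint.mul_const _).add (hPMint.mul_const _)) hX,
      intervalIntegral.integral_add (hPwint.mul_const _) (hPMint.mul_const _),
      intervalIntegral.integral_sub intervalIntegrable_const hTgint,
      intervalIntegral.integral_mul_const, intervalIntegral.integral_mul_const,
      intervalIntegral.integral_const]
    have h1 : (∫ u in (0 : ℝ)..1, ‖Pw u - PM u‖ ^ 2) * ((1 + 1 / t) / m) ≤ e * (1 + 1 / t) := by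
      refine (mul_le_mul_of_nonneg_right hdiff (by positivity)).trans (le_of_eq ?_)
      field_simp
    have h2 : (∫ u in (0 : ℝ)..1, ‖PM u‖ ^ 2) * (t / m) ≤ t * (2 + 2 * e) := by
      refine (mul_le_mul_of_nonneg_right hPMle (by positivity)).trans (le_of_eq ?_)
      field_simp
    have hη : ∀ v ∈ Act, ∫ u in (0 : ℝ)..1, er v u ≤ η := herr
    have hI1 : ∫ u in (0 : ℝ)..1, ∑ v ∈ Act, er v u ≤ Act.card * η := by
      rw [intervalIntegral.integral_finsetSum fun v _ => heint v, ← nsmul_eq_mul]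
      exact Finset.sum_le_card_nsmul _ _ _ hη
    have hI2 : ∫ u in (0 : ℝ)..1, ∑ v ∈ Act, ∑ v' ∈ Act.erase v,
        (s / 2 * (‖D v u‖ ^ 2 / m + ‖D v' u‖ ^ 2 / m) + (er v u + er v' u) / (2 * s)) ≤
        (Act.card : ℝ) ^ 2 * (s + η / s) := by
      rw [intervalIntegral.integral_finsetSum fun v _ => integrable_sum (Act.erase v) fun v' =>
          (((hDint v).add (hDint v')).const_mul (s / 2)).add
            (((heint v).add (heint v')).div_const (2 * s))]
      refine (Finset.sum_le_sum fun v hv => (?_ : _ ≤ (Act.card : ℝ) * (s + η / s))).trans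
        (le_of_eq (by rw [Finset.sum_const, nsmul_eq_mul]; ring))
      have hη0 : 0 ≤ η :=
        le_trans (intervalIntegral.integral_nonneg zero_le_one fun u _ => abs_nonneg _) (hη v hv)
      rw [intervalIntegral.integral_finsetSum fun v' _ =>
        (((hDint v).add (hDint v')).const_mul _).add (((heint v).add (heint v')).div_const _)]
      refine (Finset.sum_le_card_nsmul _ _ (s + η / s) fun v' hv' => ?_).trans ?_
      · rw [intervalIntegral.integral_add (((hDint v).add (hDint v')).const_mul _)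
          (((heint v).add (heint v')).div_const _), intervalIntegral.integral_const_mul,
          intervalIntegral.integral_div, intervalIntegral.integral_add (hDint v) (hDint v'),
          intervalIntegral.integral_add (heint v) (heint v'), hDsq, hDsq]
        have := div_le_div_of_nonneg_right (add_le_add (hη v hv) (hη v' (mem_of_mem_erase hv')))
          (by positivity : (0 : ℝ) ≤ 2 * s)
        rw [show (η + η) / (2 * s) = η / s by field_simp; ring] at this
        linarith
      · rw [nsmul_eq_mul]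
        exact mul_le_mul_of_nonneg_right (Nat.cast_le.2 (Finset.card_le_card (erase_subset _ _)))
          (by positivity)
    have hXle : ∫ u in (0 : ℝ)..1, (∑ v ∈ Act, er v u + ∑ v ∈ Act, ∑ v' ∈ Act.erase v,
        (s / 2 * (‖D v u‖ ^ 2 / m + ‖D v' u‖ ^ 2 / m) + (er v u + er v' u) / (2 * s))) ≤
        Act.card * η + (Act.card : ℝ) ^ 2 * (s + η / s) := by
      rw [intervalIntegral.integral_add]
      · exact add_le_add hI1 hI2
      · exact integrable_sum Act heint
      · exact integrable_sum Act fun v => integrable_sum (Act.erase v) fun v' =>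
            (((hDint v).add (hDint v')).const_mul _).add (((heint v).add (heint v')).div_const _)
    simp only [sub_zero, smul_eq_mul, mul_one]
    linarith

theorem sq_div_sqrt_sub_one_le {x : ℝ} (hx : 0 ≤ x) {m : ℕ} :
    (x / Real.sqrt m - 1) ^ 2 ≤ |x ^ 2 / m - 1| := by
  have hy : 0 ≤ x / Real.sqrt m := div_nonneg hx (Real.sqrt_nonneg _)
  have h : x ^ 2 / m = (x / Real.sqrt m) ^ 2 := by
    rw [div_pow, Real.sq_sqrt (Nat.cast_nonneg m)]
  rw [h]
  have h1 : |(x / Real.sqrt m) ^ 2 - 1| = |x / Real.sqrt m - 1| * (x / Real.sqrt m + 1) := by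
    rw [← abs_of_nonneg (by linarith : 0 ≤ x / Real.sqrt m + 1), ← abs_mul]
    congr 1
    ring
  rw [h1, ← sq_abs, sq]
  exact mul_le_mul_of_nonneg_left (by
    rw [abs_le]; constructor <;> linarith) (abs_nonneg _)

theorem column_eq {m : ℕ} (a : Fin m → ℕ) (ψ u : ℝ) :
    column a ψ u = ∑ j, ch (ψ * a j) * ch ((j : ℕ) * u) :=
  Finset.sum_congr rfl fun _ _ => ch_add _ _

/-- Flat families exist, given the torus model and the carrier. -/
theorem flatFamily_of (hM : TorusStatement) (hC : CarrierStatement) : FlatFamilyStatement := by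
  intro ε hε
  classical
  set δ := min ε 1 with hδ
  have hδ0 : 0 < δ := lt_min hε one_pos
  have hδ1 : δ ≤ 1 := min_le_right _ _
  set ε₁ := δ ^ 2 / 400 with hε₁
  have hε₁0 : 0 < ε₁ := by positivity
  obtain ⟨R, C, S, A, K, ξ, hR, hK, hS, hψ⟩ := hM ε₁ hε₁0
  have := C.fintype
  set supp := (univ.biUnion C.mem) with hsupp
  set n : ℝ := (supp.card : ℝ) + 1 with hn
  have hn1 : 1 ≤ n := by rw [hn]; simp
  set s := δ / (20 * n ^ 2) with hs
  set η := δ * s / (20 * n ^ 2) with hη
  have hs0 : 0 < s := by positivity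
  have hη0 : 0 < η := by positivity
  refine ⟨A, fun m₀ => ?_⟩
  obtain ⟨m, hm, E, hEm, hdisj, hshift⟩ := hC R hR C K hK ξ η hη0 (max m₀ 1)
  have hm0 : 0 < m := lt_of_lt_of_le one_pos (le_trans (le_max_right _ _) hm)
  refine ⟨m, le_trans (le_max_left _ _) hm, fun L ψ wt hψI hwt => ?_⟩
  have hψ1 : ∀ l, ψ l ∈ Set.Icc ε₁ (1 - ε₁) := fun l => by
    have : ε₁ ≤ ε := le_trans (by rw [hε₁]; nlinarith) (min_le_left ε 1)
    exact ⟨this.trans (hψI l).1, (hψI l).2.trans (by linarith)⟩
  choose Act γ hγ hexcl hsum hmean using fun l => hψ (ψ l) (hψ1 l)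
  set f : (Fin R → ℝ) → ℝ := fun x =>
    ∑ l, wt l * ‖ch (ψ l * S x) - ∑ v ∈ Act l, γ l v * ch (dot v x)‖ ^ 2 with hf
  obtain ⟨φ, hφ, hspec⟩ := hshift f (ε₁ * ∑ l, wt l) fun x => by
    simp only [hf]
    rw [Finset.sum_comm, Finset.mul_sum, Finset.sum_mul]
    refine Finset.sum_le_sum fun l _ => ?_
    rw [← Finset.mul_sum, mul_comm ε₁, mul_assoc]
    exact mul_le_mul_of_nonneg_left (hmean l x) (hwt l)
  refine ⟨fun j => S (φ j), fun j => hS _, ?_⟩
  set e : Fin L → ℝ := fun l =>
    (∑ j, ‖ch (ψ l * S (φ j)) - ∑ v ∈ Act l, γ l v * ch (dot v (φ j))‖ ^ 2) / m with he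
  have hmR : (0 : ℝ) < m := Nat.cast_pos.2 hm0
  have hesum : ∑ l, wt l * e l ≤ ε₁ * ∑ l, wt l := by
    simp only [he, mul_div, ← Finset.sum_div]
    rw [div_le_iff₀ hmR]
    refine le_trans (le_of_eq ?_) hφ
    simp only [hf, Finset.mul_sum]
    exact Finset.sum_comm
  have hcard : ∀ l, ((Act l).card : ℝ) ≤ n := fun l => by
    have hsub : Act l ⊆ supp := fun v hv => by
      obtain ⟨c, -, hc⟩ := Finset.exists_ne_zero_of_sum_ne_zero (hγ l v hv).1.ne'
      exact mem_biUnion.2 ⟨c, mem_univ _, by by_contra h; simp [h] at hc⟩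
    have : ((Act l).card : ℝ) ≤ supp.card := Nat.cast_le.2 (Finset.card_le_card hsub)
    linarith
  have hp1 : ∀ v, C.prob v ≤ 1 := fun v => by
    rw [Colours.prob, ← C.weight_sum]
    exact Finset.sum_le_sum fun c _ => by split_ifs <;> simp [C.weight_nonneg c]
  have hη' : η / s = δ / (20 * n ^ 2) := by rw [hη]; field_simp
  have hone : ∀ l, ∫ u in (0 : ℝ)..1,
      (‖column (fun j => S (φ j)) (ψ l) u‖ / Real.sqrt m - 1) ^ 2 ≤
        e l * (1 + 16 / δ + δ / 8) + δ / 2 := by
    intro l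
    have hmain := spectralError_le hm0 (Act l) (γ l) C.prob E (fun v j => dot v (φ j))
      (fun j => ch (ψ l * S (φ j))) (e := e l) (η := η) (s := s) (t := δ / 16) (ε := ε₁) hs0
      (by positivity) (fun v hv => ⟨(hγ l v hv).1, hp1 v, (hγ l v hv).2⟩) (hsum l) hEm
      (fun v hv v' hv' hne => hdisj v v' hne fun x hx => hne (hexcl l x v hv v' hv' hx.1 hx.2))
      (fun v hv => hspec v (hγ l v hv).1)
      (by simp only [he]; rw [div_mul_cancel₀ _ hmR.ne']) fun j => norm_ch _
    refine le_trans ?_ (hmain.trans ?_)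
    · rw [spectralError]
      simp only [← column_eq]
      have hcont : Continuous fun u => column (fun j => S (φ j)) (ψ l) u := by
        simp only [column_eq]
        exact continuous_expSum fun j => ch (ψ l * S (φ j))
      refine intervalIntegral.integral_mono_on zero_le_one
        (((hcont.norm.div_const _).sub continuous_const).pow 2 |>.intervalIntegrable 0 1)
        ((((hcont.norm.pow 2).div_const _).sub continuous_const).abs.intervalIntegrable 0 1)
        fun u _ => sq_div_sqrt_sub_one_le (norm_nonneg _)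
    · have hc := hcard l
      have hA : ((Act l).card : ℝ) * η ≤ δ / 20 := by
        refine (mul_le_mul_of_nonneg_right hc hη0.le).trans ?_
        have h2 : s ≤ 1 := by
          rw [hs, div_le_one (by positivity)]
          nlinarith
        rw [hη, mul_div_assoc', div_le_div_iff₀ (by positivity) (by norm_num)]
        nlinarith [mul_le_mul_of_nonneg_left h2 hδ0.le, mul_nonneg hδ0.le (sub_nonneg.2 hn1),
          mul_nonneg (mul_nonneg hδ0.le (by linarith : 0 ≤ n)) (sub_nonneg.2 h2)]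
      have hB : ((Act l).card : ℝ) ^ 2 * (s + η / s) ≤ δ / 10 := by
        refine (mul_le_mul_of_nonneg_right (pow_le_pow_left₀ (Nat.cast_nonneg _) hc 2)
          (by positivity)).trans (le_of_eq ?_)
        rw [hη', hs]
        field_simp
        ring
      have hε' : ε₁ ≤ δ / 20 := by rw [hε₁]; nlinarith
      have he' : e l * (1 + 1 / (δ / 16)) + δ / 16 * (2 + 2 * e l) =
          e l * (1 + 16 / δ + δ / 8) + δ / 8 := by
        rw [one_div_div]; ring
      linarith
  refine (Finset.sum_le_sum fun l _ => mul_le_mul_of_nonneg_left (hone l) (hwt l)).trans ?_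
  simp only [mul_add (wt _), ← mul_assoc, Finset.sum_add_distrib, ← Finset.sum_mul]
  have hW : 0 ≤ ∑ l, wt l := Finset.sum_nonneg fun l _ => hwt l
  have h1 := mul_le_mul_of_nonneg_right hesum (by positivity : (0 : ℝ) ≤ 1 + 16 / δ + δ / 8)
  have h2 : ε₁ * (1 + 16 / δ + δ / 8) ≤ δ / 2 := by
    rw [hε₁]
    field_simp
    nlinarith
  nlinarith [mul_le_mul_of_nonneg_right h2 hW,
    mul_le_mul_of_nonneg_right (min_le_left ε 1 : δ ≤ ε) hW]

end Vale.Agent.P130.Full.Core
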