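import Vale.Agent.P110.Full.OwnerCount
import Vale.Agent.P110.Full.OwnerRandom

/-!
Random colours of blocks, antisymmetric under a weight-preserving involution, and the probability
that prescribed blocks have colours containing prescribed classes.
-/

noncomputable section

namespace Vale.Agent.P130.Full.Core.OwnerColours

open Finset
open scoped Classical
open Vale.Agent.P110.Full (rep rep_val val_mirror)

/-- A law on colours with an involution and an incidence between colours and classes. -/
structure Law (Col I : Type) [Fintype Col] where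
  wgt : Col → ℝ
  nonneg : ∀ c, 0 ≤ wgt c
  total : ∑ c, wgt c = 1
  neg : Col → Col
  invol : Function.Involutive neg
  wgt_neg : ∀ c, wgt (neg c) = wgt c
  has : Col → I → Prop

variable {Col I : Type} [Fintype Col] {q : ℕ} (L : Law Col I)

/-- The probability that a colour contains the class. -/
def Law.marg (i : I) : ℝ := ∑ c, if L.has c i then L.wgt c else 0

/-- The colours given by the values on one half. -/
def mk (hq : 0 < q) (f : Fin q → Col) (B : ZMod (2 * q)) : Col :=
  if B.val < q then f (rep hq B) else L.neg (f (rep hq B))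

/-- The mean over all choices of colours. -/
def av (F : (Fin q → Col) → ℝ) : ℝ := ∑ f : Fin q → Col, (∏ k, L.wgt (f k)) * F f

/-- One if the colour of the block contains the class. -/
def own (hq : 0 < q) (f : Fin q → Col) (B : ZMod (2 * q)) (i : I) : ℝ :=
  if L.has (mk L hq f B) i then 1 else 0

lemma anti_mk [NeZero (2 * q)] (hq : 0 < q) (f : Fin q → Col) (B : ZMod (2 * q)) :
    mk L hq f (-1 - B) = L.neg (mk L hq f B) := by
  have hB := B.val_lt
  have m := val_mirror B
  have e : rep hq (-1 - B) = rep hq B := by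
    apply Fin.ext
    rw [rep_val, rep_val, m]
    split_ifs <;> omega
  unfold mk
  rw [e, m]
  by_cases h : B.val < q
  · rw [if_pos h, if_neg (show ¬ 2 * q - 1 - B.val < q by omega)]
  · rw [if_neg h, if_pos (show 2 * q - 1 - B.val < q by omega), L.invol]

/-- Prescribed events at distinct coordinates are independent. -/
lemma cylinder {M : Type*} [Fintype M] (r : M → Fin q) (hr : Function.Injective r)
    (h : M → Col → ℝ) :
    av L (fun f => ∏ m, h m (f (r m))) = ∏ m, ∑ c, L.wgt c * h m c := by
  set H : Fin q → Col → ℝ := fun k a => ∏ m : {m // r m = k}, h m a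
  have e1 : ∀ f : Fin q → Col, (∏ m, h m (f (r m))) = ∏ k, H k (f k) := by
    intro f
    rw [← Fintype.prod_fiberwise r (fun m => h m (f (r m)))]
    exact prod_congr rfl fun k _ => prod_congr rfl fun m _ => by rw [m.2]
  simp only [av, e1, ← prod_mul_distrib]
  rw [← Fintype.prod_sum (fun k a => L.wgt a * H k a),
    ← Fintype.prod_fiberwise r (fun m => ∑ c, L.wgt c * h m c)]
  refine prod_congr rfl fun k _ => ?_
  have : Subsingleton {m // r m = k} := ⟨fun a b => Subtype.ext (hr (a.2.trans b.2.symm))⟩
  by_cases hk : ∃ m, r m = k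
  · obtain ⟨m, hm⟩ := hk
    have hu : (univ : Finset {m // r m = k}) = {⟨m, hm⟩} := by
      ext a; simp [Subsingleton.elim a ⟨m, hm⟩]
    simp [H, hu]
  · have : IsEmpty {m // r m = k} := ⟨fun a => hk ⟨a.1, a.2⟩⟩
    simpa [H] using L.total

lemma av_own (hq : 0 < q) {M : Type*} [Fintype M] (B : M → ZMod (2 * q))
    (hB : Function.Injective fun m => rep hq (B m)) (g : M → I) :
    av L (fun f => ∏ m, own L hq f (B m) (g m)) = ∏ m, L.marg (g m) := by
  rw [show (fun f : Fin q → Col => ∏ m, own L hq f (B m) (g m)) = fun f => ∏ m,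
      (if L.has (if (B m).val < q then f (rep hq (B m)) else L.neg (f (rep hq (B m)))) (g m)
        then (1 : ℝ) else 0) from rfl,
    cylinder L _ hB fun m c =>
      if L.has (if (B m).val < q then c else L.neg c) (g m) then (1 : ℝ) else 0]
  refine prod_congr rfl fun m _ => ?_
  by_cases h : (B m).val < q
  · simp [h, Law.marg]
  · simp only [h, if_false, Law.marg]
    rw [← Equiv.sum_comp (Function.Involutive.toPerm _ L.invol)]
    exact sum_congr rfl fun c _ => by simp [L.invol c, L.wgt_neg]

lemma av_one : av L (fun _ : Fin q → Col => 1) = 1 := by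
  have := cylinder L (q := q) (M := Empty) Empty.elim (fun a => a.elim) Empty.elim
  simpa using this

lemma av_add (F G : (Fin q → Col) → ℝ) :
    av L (fun f => F f + G f) = av L F + av L G := by
  simp [av, mul_add, sum_add_distrib]

lemma av_mul (a : ℝ) (F : (Fin q → Col) → ℝ) : av L (fun f => a * F f) = a * av L F := by
  simp [av, mul_sum, mul_left_comm]

lemma av_sum {α : Type*} (s : Finset α) (F : α → (Fin q → Col) → ℝ) :
    av L (fun f => ∑ x ∈ s, F x f) = ∑ x ∈ s, av L (F x) := by
  simp only [av, mul_sum]
  exact sum_comm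

lemma av_mono {F G : (Fin q → Col) → ℝ} (h : ∀ f, F f ≤ G f) : av L F ≤ av L G :=
  sum_le_sum fun f _ => mul_le_mul_of_nonneg_left (h f) (prod_nonneg fun _ _ => L.nonneg _)

lemma av_range {F : (Fin q → Col) → ℝ} (h : ∀ f, 0 ≤ F f ∧ F f ≤ 1) :
    0 ≤ av L F ∧ av L F ≤ 1 :=
  ⟨sum_nonneg fun f _ => mul_nonneg (prod_nonneg fun _ _ => L.nonneg _) (h f).1,
    (av_mono L fun f => (h f).2).trans_eq (av_one L)⟩

/-- Some choice does no worse than the mean. -/
lemma exists_le_av {F : (Fin q → Col) → ℝ} {b : ℝ} (h : av L F < b) : ∃ f, F f < b := by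
  by_contra hn
  push Not at hn
  have := av_mono L (q := q) (F := fun _ => b * 1) (G := F) (fun f => by simpa using hn f)
  rw [av_mul, av_one, mul_one] at this
  linarith

/-- A mean square bounds the mean absolute value. -/
lemma av_abs {α : Type*} (s : Finset α) (X : α → (Fin q → Col) → ℝ) {lam b : ℝ} (hlam : 0 < lam)
    (h : ∑ x ∈ s, av L (fun f => X x f ^ 2) ≤ b) :
    av L (fun f => ∑ x ∈ s, |X x f|) ≤ b / (2 * lam) + lam / 2 * #s := by
  calc av L (fun f => ∑ x ∈ s, |X x f|)
      ≤ av L (fun f => ∑ x ∈ s, ((1 / (2 * lam)) * X x f ^ 2 + lam / 2 * 1)) := by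
        refine av_mono L fun f => sum_le_sum fun x _ => ?_
        have e : (1 / (2 * lam)) * X x f ^ 2 + lam / 2 * 1 - |X x f| =
            (|X x f| - lam) ^ 2 / (2 * lam) := by
          rw [← sq_abs (X x f)]
          field_simp
          ring
        nlinarith [div_nonneg (sq_nonneg (|X x f| - lam)) (by positivity : (0 : ℝ) ≤ 2 * lam)]
    _ = (1 / (2 * lam)) * ∑ x ∈ s, av L (fun f => X x f ^ 2) + lam / 2 * #s := by
        simp only [av_sum, av_add, av_mul, av_one, sum_add_distrib, ← mul_sum, sum_const,
          nsmul_eq_mul]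
        ring
    _ ≤ b / (2 * lam) + lam / 2 * #s := by
        rw [div_eq_mul_one_div b (2 * lam), mul_comm b]
        gcongr

end Vale.Agent.P130.Full.Core.OwnerColours
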