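import Vale.Agent.P110.Full.OwnerMoment
import Vale.Agent.P130.Full.Core.OwnerRandom

/-!
The mean square deviation of the number of good groups starting at a slot, for random colours.
-/

noncomputable section

namespace Vale.Agent.P130.Full.Core.OwnerColours

open Finset
open scoped Classical
open Vale.Agent.P110.Full (blk lin Coinc rep coinc_of_rep Generic Slots split_card card_residue
  primitive_form coinc_single coinc_cross)

variable {Col I : Type} [Fintype Col] [Fintype I] [DecidableEq I] {R q W : ℕ} [Fact q.Prime]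
  [NeZero (2 * q)] {v : I → Fin R → ℤ} {w : I → ℕ}

/-- One if the group is good. -/
def ind (L : Law Col I) (hq : 0 < q) (W : ℕ) (v : I → Fin R → ℤ) (w : I → ℕ) (f : Fin q → Col)
    (x : (Fin R → ZMod (2 * q)) × Fin W) : ℝ :=
  ∏ j, own L hq f (blk q W v w j x) j

variable (L : Law Col I)

set_option linter.unusedSectionVars false

lemma av_ind (hq : 0 < q) (x : (Fin R → ZMod (2 * q)) × Fin W)
    (hgood : ∀ j k, j ≠ k → ¬ Coinc (blk q W v w j x) (blk q W v w k x)) :
    av L (fun f => ind L hq W v w f x) = ∏ j, L.marg j :=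
  av_own L hq (fun j => blk q W v w j x)
    (fun j k h => by_contra fun hne => hgood j k hne (coinc_of_rep hq h)) id

lemma av_pair (hq : 0 < q) {i : I}
    (x y : (Fin R → ZMod (2 * q)) × Fin W)
    (hxy : blk q W v w i x = blk q W v w i y)
    (hx : ∀ j k, j ≠ k → ¬ Coinc (blk q W v w j x) (blk q W v w k x))
    (hy : ∀ j k, j ≠ k → ¬ Coinc (blk q W v w j y) (blk q W v w k y))
    (hc : ∀ j k, j ≠ i → k ≠ i → ¬ Coinc (blk q W v w j x) (blk q W v w k y)) :
    av L (fun f => ind L hq W v w f x * ind L hq W v w f y) =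
      L.marg i * (∏ j ∈ univ.erase i, L.marg j) * ∏ j ∈ univ.erase i, L.marg j := by
  set B : I ⊕ {j // j ≠ i} → ZMod (2 * q) :=
    Sum.elim (fun j => blk q W v w j x) (fun j => blk q W v w j.1 y)
  have hsub : ∀ g : I → ℝ, ∏ j : {j // j ≠ i}, g j = ∏ j ∈ univ.erase i, g j := fun g =>
    (prod_subtype _ (by simp) g).symm
  have e : ∀ f : Fin q → Col, ind L hq W v w f x * ind L hq W v w f y =
      ∏ m, own L hq f (B m) (Sum.elim id Subtype.val m) := by
    intro f
    simp only [Fintype.prod_sum_type, B, Sum.elim_inl, Sum.elim_inr, id, ind]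
    rw [hsub (fun j => own L hq f (blk q W v w j y) j),
      ← mul_prod_erase univ (fun j => own L hq f (blk q W v w j y) j) (mem_univ i),
      ← mul_prod_erase univ (fun j => own L hq f (blk q W v w j x) j) (mem_univ i), hxy]
    unfold own
    split_ifs <;> ring
  simp only [e]
  rw [av_own L hq B ?_ _]
  · simp only [Fintype.prod_sum_type, Sum.elim_inl, Sum.elim_inr, id]
    rw [hsub L.marg, ← mul_prod_erase univ L.marg (mem_univ i)]
  · rintro (j | ⟨j, hj⟩) (k | ⟨k, hk⟩) h <;> have h' := coinc_of_rep hq h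
    · exact congrArg _ (by_contra fun hne => hx j k hne h')
    · by_cases hji : j = i
      · subst hji
        exact absurd (show Coinc (blk q W v w j y) (blk q W v w k y) by rwa [← hxy]) (hy j k (Ne.symm hk))
      · exact absurd h' (hc j k hji hk)
    · have h'' := coinc_of_rep hq h.symm
      by_cases hki : k = i
      · subst hki
        exact absurd (show Coinc (blk q W v w k y) (blk q W v w j y) by rwa [← hxy]) (hy k j (Ne.symm hj))
      · exact absurd h'' (hc k j hki hj)
    · exact congrArg _ (Subtype.ext (by_contra fun hne => hy j k hne h'))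

lemma own_nonneg (hq : 0 < q) (f : Fin q → Col) (B : ZMod (2 * q)) (i : I) :
    0 ≤ own L hq f B i ∧ own L hq f B i ≤ 1 := by
  unfold own; split_ifs <;> norm_num

lemma ind_range (hq : 0 < q) (f : Fin q → Col) (x : (Fin R → ZMod (2 * q)) × Fin W) :
    0 ≤ ind L hq W v w f x ∧ ind L hq W v w f x ≤ 1 :=
  ⟨prod_nonneg fun j _ => (own_nonneg L hq f _ j).1,
    prod_le_one (fun j _ => (own_nonneg L hq f _ j).1) fun j _ => (own_nonneg L hq f _ j).2⟩

lemma moment (hG : Generic q v) (hR : 2 ≤ R)
    (hq : 0 < q) (i : I) (hw : 0 < w i) (hdvd : w i ∣ W) {l : ℕ} (hl : l < W / w i) :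
    ∑ B : ZMod (2 * q), av L (fun f =>
      (∑ x ∈ Slots q R W (W / w i) l with blk q W v w i x = B, ind L hq W v w f x -
        (w i * (2 * q : ℝ) ^ (R - 1) * ∏ j ∈ univ.erase i, L.marg j) * own L hq f B i) ^ 2) ≤
      24 * (Fintype.card I : ℝ) ^ 2 * (w i * (2 * q : ℝ) ^ (R - 1)) ^ 2 := by
  obtain ⟨R', rfl⟩ : ∃ R', R = R' + 2 := ⟨R - 2, by omega⟩
  rw [show R' + 2 - 1 = R' + 1 from rfl]
  set S := Slots q (R' + 2) W (W / w i) l
  set n : ℕ := Fintype.card I
  set K : ℕ := w i * (2 * q) ^ (R' + 1) with hK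
  set fib := fun B => S.filter fun x => blk q W v w i x = B with hfibdef
  set rest := ∏ j ∈ univ.erase i, L.marg j with hrest
  have hT : #{t : Fin W | (t : ℕ) % (W / w i) = l} = w i := card_residue hw hdvd hl
  have perSlot : ∀ (P : ((Fin (R' + 2) → ZMod (2 * q)) × Fin W) → Prop) {_ : DecidablePred P}
      (b : ℕ),
      (∀ t, #{c | P (c, t)} ≤ b) → #(S.filter P) ≤ w i * b := by
    intro P _ b hb
    have : S.filter P = univ.filter fun x => (x.2 : ℕ) % (W / w i) = l ∧ P x := by
      simp only [S, Slots, filter_filter]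
    rw [this, split_card]
    calc ∑ t : Fin W, #{c : Fin (R' + 2) → ZMod (2 * q) | (t : ℕ) % (W / w i) = l ∧ P (c, t)}
        ≤ ∑ t : Fin W, if (t : ℕ) % (W / w i) = l then b else 0 := sum_le_sum fun t _ => by
          by_cases ht : (t : ℕ) % (W / w i) = l <;> simp [ht, hb t]
      _ = w i * b := by rw [← sum_filter, sum_const, hT, smul_eq_mul]
  -- every fibre has `K` elements
  have hfib : ∀ B, #(fib B) = K := by
    intro B
    have e : fib B = univ.filter fun x => (x.2 : ℕ) % (W / w i) = l ∧ blk q W v w i x = B := by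
      simp only [hfibdef, S, Slots, filter_filter]
    rw [e, split_card]
    calc ∑ t : Fin W, #{c : Fin (R' + 2) → ZMod (2 * q) |
          (t : ℕ) % (W / w i) = l ∧ blk q W v w i (c, t) = B}
        = ∑ t : Fin W, if (t : ℕ) % (W / w i) = l then (2 * q) ^ (R' + 1) else 0 := by
          refine sum_congr rfl fun t _ => ?_
          by_cases ht : (t : ℕ) % (W / w i) = l
          · simp only [ht, true_and, if_true]
            refine Nat.eq_of_mul_eq_mul_right (show 0 < 2 * q by omega) ?_
            rw [← pow_succ]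
            convert primitive_form (hG.primitive i)
              (B - ((w i * (t : ℕ) / W : ℕ) : ZMod (2 * q))) using 3
            ext c
            simp [blk, eq_sub_iff_add_eq]
          · simp [ht]
      _ = K := by rw [← sum_filter, sum_const, hT, smul_eq_mul]
  have hS : #S = 2 * q * K := by
    rw [card_eq_sum_card_fiberwise (f := fun x => blk q W v w i x)
      (t := univ) fun x _ => mem_univ _, sum_congr rfl fun B _ => hfib B, sum_const, card_univ,
      ZMod.card, smul_eq_mul]
  set bad := fun x => ∃ j k, j ≠ k ∧ Coinc (blk q W v w j x) (blk q W v w k x) with hbad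
  set cross := fun x y => ∃ j k, j ≠ i ∧ k ≠ i ∧ Coinc (blk q W v w j x) (blk q W v w k y)
    with hcross
  have hbadcard : #(S.filter bad) ≤ 4 * n ^ 2 * K := by
    refine (perSlot bad (n * (n * (4 * (2 * q) ^ (R' + 1)))) fun t => ?_).trans
      (le_of_eq (show w i * (n * (n * (4 * (2 * q) ^ (R' + 1)))) =
        4 * n ^ 2 * (w i * (2 * q) ^ (R' + 1)) by ring))
    calc #{c | bad (c, t)}
        ≤ #(univ.biUnion fun j => univ.biUnion fun k =>
            univ.filter fun c : Fin (R' + 2) → ZMod (2 * q) =>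
              j ≠ k ∧ Coinc (blk q W v w j (c, t)) (blk q W v w k (c, t))) :=
          card_le_card fun c hc => by simpa [hbad] using hc
      _ ≤ n * (n * (4 * (2 * q) ^ (R' + 1))) :=
          card_biUnion_le_card_mul _ _ _ fun j _ => card_biUnion_le_card_mul _ _ _ fun k _ => by
            by_cases hjk : j = k
            · simp [hjk]
            · simp only [ne_eq, hjk, not_false_eq_true, true_and]
              refine Nat.le_of_mul_le_mul_right ((coinc_single hG hjk t).trans (le_of_eq ?_)) hq
              ring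
  have hcrosscard : ∀ x, #((fib (blk q W v w i x)).filter (cross x)) ≤
      w i * (n * (n * (8 * (2 * q) ^ R'))) := by
    intro x
    rw [hfibdef, filter_filter]
    refine perSlot _ _ fun t => ?_
    calc #{c | blk q W v w i (c, t) = blk q W v w i x ∧ cross x (c, t)}
        ≤ #(univ.biUnion fun j => univ.biUnion fun k =>
            univ.filter fun c : Fin (R' + 2) → ZMod (2 * q) =>
              k ≠ i ∧ blk q W v w i (c, t) = blk q W v w i x ∧
                Coinc (blk q W v w j x) (blk q W v w k (c, t))) :=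
          card_le_card fun c hc => by
            simp only [hcross, mem_filter, mem_univ, true_and] at hc
            obtain ⟨hb, j, k, -, hk, h⟩ := hc
            simp only [mem_biUnion, mem_filter, mem_univ, true_and]
            exact ⟨j, k, hk, hb, h⟩
      _ ≤ n * (n * (8 * (2 * q) ^ R')) :=
          card_biUnion_le_card_mul _ _ _ fun j _ => card_biUnion_le_card_mul _ _ _ fun k _ => by
            by_cases hk : k = i
            · simp [hk]
            · simp only [ne_eq, hk, not_false_eq_true, true_and]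
              refine Nat.le_of_mul_le_mul_right
                ((coinc_cross hG (Ne.symm hk) t _ _).trans (le_of_eq ?_)) (Nat.mul_pos hq hq)
              ring
  have hp0 : ∀ j, 0 ≤ L.marg j := fun j => sum_nonneg fun c _ => by
    split_ifs <;> [exact L.nonneg c; exact le_rfl]
  have hrest0 : 0 ≤ rest := prod_nonneg fun j _ => hp0 j
  have hp1 : ∀ j, L.marg j ≤ 1 := fun j => (sum_le_sum fun c _ => by
    split_ifs <;> [exact le_rfl; exact L.nonneg c]).trans_eq L.total
  have hrest1 : rest ≤ 1 := prod_le_one (fun j _ => hp0 j) fun j _ => hp1 j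
  set μ := (K : ℝ) * rest with hμ
  have eμ : (w i : ℝ) * (2 * q : ℝ) ^ (R' + 1) = (K : ℝ) := by rw [hK]; push_cast; ring
  rw [eμ, ← hμ]
  let A : ((Fin (R' + 2) → ZMod (2 * q)) × Fin W) → ((Fin (R' + 2) → ZMod (2 * q)) × Fin W) → ℝ :=
    fun x y => av L fun f => ind L hq W v w f x * ind L hq W v w f y
  -- expand the square
  have step : ∑ B : ZMod (2 * q), av L (fun f => (∑ x ∈ fib B, ind L hq W v w f x -
        μ * own L hq f B i) ^ 2) =
      ∑ x ∈ S, ∑ y ∈ fib (blk q W v w i x), A x y -
        2 * μ * ∑ x ∈ S, av L (fun f => ind L hq W v w f x) + μ ^ 2 * (2 * q * L.marg i) := by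
    have e : ∀ f B, (∑ x ∈ fib B, ind L hq W v w f x - μ * own L hq f B i) ^ 2 =
        ∑ x ∈ fib B, ∑ y ∈ fib B, ind L hq W v w f x * ind L hq W v w f y +
          (-(2 * μ) * ∑ x ∈ fib B, ind L hq W v w f x + μ ^ 2 * own L hq f B i) := by
      intro f B
      have h1 : (∑ x ∈ fib B, ind L hq W v w f x) * own L hq f B i =
          ∑ x ∈ fib B, ind L hq W v w f x := by
        rw [sum_mul]
        refine sum_congr rfl fun x hx => ?_
        rw [ind, ← mul_prod_erase univ _ (mem_univ i), (mem_filter.1 hx).2]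
        unfold own
        split_ifs <;> ring
      have h2 : own L hq f B i * own L hq f B i = own L hq f B i := by
        unfold own
        split_ifs <;> ring
      rw [← sum_mul_sum]
      linear_combination (-2 * μ) * h1 + μ ^ 2 * h2
    have ho : ∀ B, av L (fun f => own L hq f B i) = L.marg i := fun B => by
      simpa using av_own L (M := Unit) hq (fun _ => B) (fun _ _ _ => rfl) (fun _ => i)
    have hf : ∀ g : ((Fin (R' + 2) → ZMod (2 * q)) × Fin W) → ℝ,
        ∑ B, ∑ x ∈ fib B, g x = ∑ x ∈ S, g x := fun g =>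
      sum_fiberwise S (fun x => blk q W v w i x) g
    calc ∑ B, av L (fun f => (∑ x ∈ fib B, ind L hq W v w f x - μ * own L hq f B i) ^ 2)
        = ∑ B, (∑ x ∈ fib B, ∑ y ∈ fib B, A x y +
            (-(2 * μ) * ∑ x ∈ fib B, av L (fun f => ind L hq W v w f x) + μ ^ 2 * L.marg i)) := by
          simp only [e, av_add, av_sum, av_mul, ho, A]
      _ = _ := by
          rw [sum_add_distrib, sum_add_distrib, ← mul_sum, hf, sum_const, card_univ, ZMod.card,
            nsmul_eq_mul, ← hf (fun x => ∑ y ∈ fib (blk q W v w i x), A x y)]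
          rw [sum_congr rfl fun B _ => sum_congr rfl fun x (hx : x ∈ fib B) =>
            show ∑ y ∈ fib B, A x y = ∑ y ∈ fib (blk q W v w i x), A x y by
              rw [(mem_filter.1 hx).2]]
          push_cast
          ring
  show ∑ B : ZMod (2 * q), av L (fun f => (∑ x ∈ fib B, ind L hq W v w f x -
        μ * own L hq f B i) ^ 2) ≤ _
  rw [step]
  have hA : ∀ x y, y ∈ fib (blk q W v w i x) → A x y ≤ L.marg i * rest * rest +
      ((if bad x then 1 else 0) + (if bad y then 1 else 0) + (if cross x y then 1 else 0)) := by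
    intro x y hy
    have hA1 : A x y ≤ 1 := (av_range L fun f =>
      ⟨mul_nonneg (ind_range L hq f x).1 (ind_range L hq f y).1,
        mul_le_one₀ (ind_range L hq f x).2 (ind_range L hq f y).1 (ind_range L hq f y).2⟩).2
    have hg : 0 ≤ L.marg i * rest * rest := mul_nonneg (mul_nonneg (hp0 i) hrest0) hrest0
    by_cases h1 : bad x
    · rw [if_pos h1]; split_ifs <;> linarith
    by_cases h2 : bad y
    · rw [if_pos h2]; split_ifs <;> linarith
    by_cases h3 : cross x y
    · rw [if_pos h3]; split_ifs <;> linarith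
    rw [if_neg h1, if_neg h2, if_neg h3]
    simp only [hbad, hcross, not_exists, not_and] at h1 h2 h3
    simp only [A, av_pair L hq x y (mem_filter.1 hy).2.symm h1 h2 h3]
    simp [hrest]
  have hone : ∀ x, L.marg i * rest - (if bad x then 1 else 0) ≤ av L (fun f => ind L hq W v w f x) := by
    intro x
    have h0 : 0 ≤ av L (fun f => ind L hq W v w f x) := (av_range L fun f => ind_range L hq f x).1
    by_cases h1 : bad x
    · rw [if_pos h1]; nlinarith [mul_le_one₀ (hp1 i) hrest0 hrest1]
    · rw [if_neg h1, sub_zero]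
      simp only [hbad, not_exists, not_and] at h1
      rw [av_ind L hq x h1, hrest, mul_prod_erase univ L.marg (mem_univ i)]
  have hb : (#(S.filter bad) : ℝ) ≤ 4 * (n : ℝ) ^ 2 * K := by exact_mod_cast hbadcard
  have t1 : ∑ x ∈ S, ∑ y ∈ fib (blk q W v w i x), (if bad x then (1 : ℝ) else 0) ≤
      4 * (n : ℝ) ^ 2 * K * K := by
    simp only [sum_const, hfib, nsmul_eq_mul, ← mul_sum]
    rw [sum_boole]
    nlinarith [(Nat.cast_nonneg K : (0 : ℝ) ≤ K)]
  have t2 : ∑ x ∈ S, ∑ y ∈ fib (blk q W v w i x), (if bad y then (1 : ℝ) else 0) ≤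
      4 * (n : ℝ) ^ 2 * K * K := by
    rw [sum_comm' (t' := S) (s' := fun y => fib (blk q W v w i y)) (fun x y => by
      simp only [hfibdef, mem_filter]; constructor <;> rintro ⟨h1, h2⟩
      · exact ⟨⟨h1, h2.2.symm⟩, h2.1⟩
      · exact ⟨h1.1, h2, h1.2.symm⟩)]
    exact t1
  have t3 : ∑ x ∈ S, ∑ y ∈ fib (blk q W v w i x), (if cross x y then (1 : ℝ) else 0) ≤
      8 * (n : ℝ) ^ 2 * K * K := by
    have : ∑ x ∈ S, #((fib (blk q W v w i x)).filter (cross x)) ≤ 8 * n ^ 2 * K * K := by
      refine (sum_le_sum fun x _ => hcrosscard x).trans (le_of_eq ?_)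
      rw [sum_const, hS, smul_eq_mul, hK]
      ring
    rw [sum_congr rfl fun x _ => sum_boole (p := cross x) (fib (blk q W v w i x))]
    exact_mod_cast this
  have sA : ∑ x ∈ S, ∑ y ∈ fib (blk q W v w i x), A x y ≤
      2 * q * K * K * (L.marg i * rest * rest) + 16 * (n : ℝ) ^ 2 * K * K := by
    refine (sum_le_sum fun x _ => sum_le_sum fun y hy => hA x y hy).trans ?_
    simp only [sum_add_distrib]
    have : ∑ x ∈ S, ∑ y ∈ fib (blk q W v w i x), (L.marg i * rest * rest) =
        2 * q * K * K * (L.marg i * rest * rest) := by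
      simp only [sum_const, hfib, nsmul_eq_mul]
      rw [hS]
      push_cast
      ring
    linarith
  have sI : 2 * q * K * (L.marg i * rest) - 4 * (n : ℝ) ^ 2 * K ≤
      ∑ x ∈ S, av L (fun f => ind L hq W v w f x) := by
    refine le_trans ?_ (sum_le_sum fun x _ => hone x)
    rw [sum_sub_distrib, sum_const, hS, nsmul_eq_mul, sum_boole]
    push_cast
    linarith
  have hμ0 : 0 ≤ μ := mul_nonneg (Nat.cast_nonneg K) hrest0
  have hμ1 : μ ≤ K := by rw [hμ]; exact mul_le_of_le_one_right (Nat.cast_nonneg K) hrest1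
  have e3 : 2 * μ * (2 * q * K * (L.marg i * rest)) =
      2 * q * K * K * (L.marg i * rest * rest) + μ ^ 2 * (2 * q * L.marg i) := by rw [hμ]; ring
  nlinarith [mul_le_mul_of_nonneg_left sI (by linarith : 0 ≤ 2 * μ),
    mul_le_mul_of_nonneg_left hμ1 (by positivity : (0 : ℝ) ≤ 8 * (n : ℝ) ^ 2 * K)]

end Vale.Agent.P130.Full.Core.OwnerColours
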