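import Vale.Agent.P110.Full.Owner
import Vale.Agent.P130.Full.Core.OwnerMoment
import Vale.Agent.P130.Full.Core.Statements

/-!
Random colours of blocks: some antisymmetric choice gives nearly the expected numbers of groups at
all the starts.
-/

noncomputable section

namespace Vale.Agent.P130.Full.Core.OwnerColours

open Finset
open scoped Classical
open Vale.Agent.P110.Full (blk Coinc coinc_of_rep rep Generic Slots StartsAt startsAt_iff
  exists_generic_fibre)

variable {Col I : Type} [Fintype Col] [Fintype I] [DecidableEq I] (L : Law Col I)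

omit [Fintype I] [DecidableEq I] in
lemma count_bound {q : ℕ} [NeZero (2 * q)] (hq : 0 < q) (i : I) {ρ : ℝ} (hρ : 0 < ρ) :
    av L (fun f => |∑ B, own L hq f B i - 2 * q * L.marg i|) ≤ 1 / ρ + ρ * q := by
  have hq' : (0 : ℝ) < q := by exact_mod_cast hq
  have h01 : ∀ f B, 0 ≤ own L hq f B i ∧ own L hq f B i ≤ 1 := fun f B => by
    unfold own; split_ifs <;> norm_num
  have ho : ∀ B, av L (fun f => own L hq f B i) = L.marg i := fun B => by
    simpa using av_own L (M := Unit) hq (fun _ => B) (fun _ _ _ => rfl) (fun _ => i)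
  have hoo : ∀ B B', av L (fun f => own L hq f B i * own L hq f B' i) ≤
      L.marg i * L.marg i + if Coinc B B' then 1 else 0 := by
    intro B B'
    by_cases h : Coinc B B'
    · rw [if_pos h]
      have := (av_range L (F := fun f => own L hq f B i * own L hq f B' i) fun f =>
        ⟨mul_nonneg (h01 f B).1 (h01 f B').1,
          mul_le_one₀ (h01 f B).2 (h01 f B').1 (h01 f B').2⟩).2
      nlinarith [mul_self_nonneg (L.marg i)]
    · rw [if_neg h, add_zero]
      have := av_own L hq (![B, B']) (fun m m' hm => ?_) (fun _ => i)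
      · rw [Fin.prod_univ_two] at this
        rw [← this]
        exact le_of_eq (congrArg (av L) (funext fun f => by simp [Fin.prod_univ_two]))
      · by_contra hne
        have hc := coinc_of_rep hq hm
        fin_cases m <;> fin_cases m'
        · exact hne rfl
        · exact h hc
        · exact h (by
            rcases hc with hc | hc
            · exact Or.inl hc.symm
            · refine Or.inr ?_
              simp only [Fin.mk_one, Fin.zero_eta, Matrix.cons_val_one, Matrix.cons_val_zero] at hc
              rw [hc]; ring)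
        · exact hne rfl
  have h2 : ∀ B : ZMod (2 * q), (∑ B', if Coinc B B' then (1 : ℝ) else 0) ≤ 2 := by
    intro B
    rw [sum_boole]
    have : #{B' | Coinc B B'} ≤ #({B, -1 - B} : Finset (ZMod (2 * q))) := card_le_card fun B' h => by
      simp only [mem_filter, mem_univ, true_and, mem_insert, mem_singleton] at h ⊢
      rcases h with h | h
      · exact Or.inl h.symm
      · exact Or.inr (by rw [h]; ring)
    exact_mod_cast this.trans card_le_two
  have hb : ∑ _x ∈ ({()} : Finset Unit),
      av L (fun f => (∑ B, own L hq f B i - 2 * q * L.marg i) ^ 2) ≤ 4 * q := by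
    rw [sum_singleton]
    set c := 2 * (q : ℝ) * L.marg i with hc
    have e : ∀ f : Fin q → Col, (∑ B, own L hq f B i - c) ^ 2 =
        ∑ B, ∑ B', own L hq f B i * own L hq f B' i +
          (-(2 * c) * ∑ B, own L hq f B i + c ^ 2 * 1) := by
      intro f; rw [← sum_mul_sum]; ring
    simp only [e, av_add, av_sum, av_mul, ho, av_one, sum_const, card_univ, ZMod.card,
      nsmul_eq_mul]
    have := sum_le_sum (s := (univ : Finset (ZMod (2 * q)))) fun B _ =>
      (sum_le_sum (s := (univ : Finset (ZMod (2 * q)))) fun B' _ => hoo B B').trans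
        (le_of_eq (sum_add_distrib (f := fun _ => L.marg i * L.marg i)
          (g := fun B' => if Coinc B B' then (1 : ℝ) else 0)))
    simp only [sum_add_distrib, sum_const, card_univ, ZMod.card, nsmul_eq_mul] at this
    have h4 := sum_le_sum (s := (univ : Finset (ZMod (2 * q)))) fun B _ => h2 B
    simp only [sum_const, card_univ, ZMod.card, nsmul_eq_mul] at h4
    push_cast at this h4 ⊢
    rw [hc]
    linarith
  have := av_abs L ({()} : Finset Unit)
    (fun _ f => ∑ B, own L hq f B i - 2 * q * L.marg i) (lam := ρ * (2 * q)) (by positivity) hb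
  simp only [sum_singleton, card_singleton, Nat.cast_one, mul_one] at this
  refine this.trans (le_of_eq ?_)
  field_simp
  ring

/-- The group `x` is good for the colouring `o`. -/
def Good {R : ℕ} (q W : ℕ) (v : I → Fin R → ℤ) (w : I → ℕ) (o : ZMod (2 * q) → Col)
    (x : (Fin R → ZMod (2 * q)) × Fin W) : Prop :=
  ∀ i, L.has (o (blk q W v w i x)) i

omit [DecidableEq I] in
lemma slot_card {R q W : ℕ} [NeZero (2 * q)] (hq : 0 < q) (v : I → Fin R → ℤ) (w : I → ℕ)
    (f : Fin q → Col) (i : I) (hW : 0 < W) (hw : 0 < w i) (hdvd : w i ∣ W) {l : ℕ}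
    (hl : l < W / w i) (B : ZMod (2 * q)) :
    (Nat.card {x : (Fin R → ZMod (2 * q)) × Fin W // Good L q W v w (mk L hq f) x ∧
        StartsAt q W v w i x (((W : ℤ) * (B.val : ℤ) + (w i * l : ℕ) : ℤ) : ZMod (2 * q * W))} : ℝ) =
      ∑ x ∈ Slots q R W (W / w i) l with blk q W v w i x = B, ind L hq W v w f x := by
  rw [Nat.card_eq_fintype_card, Fintype.card_subtype, Slots, filter_filter, sum_filter,
    natCast_card_filter]
  refine sum_congr rfl fun x _ => ?_
  simp only [startsAt_iff v w i hW hw hdvd x B hl, Good]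
  have hi : ind L hq W v w f x = if ∀ j, L.has (mk L hq f (blk q W v w j x)) j then 1 else 0 := by
    simp only [ind, own]
    split_ifs with h
    · exact prod_eq_one fun j _ => if_pos (h j)
    · push Not at h
      obtain ⟨j, hj⟩ := h
      exact prod_eq_zero (mem_univ j) (if_neg hj)
  rw [hi]
  split_ifs <;> tauto

/-- Some antisymmetric colouring of the blocks gives every class nearly its share of blocks, and
nearly the expected number of good groups at its starts. -/
theorem exists_owner {R : ℕ} (hR : 2 ≤ R) (v : I → Fin R → ℤ)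
    (hprim : ∀ i, ∃ ξ : Fin R → ℤ, ∑ l, v i l * ξ l = 1)
    (hdist : ∀ i j, i ≠ j → v i ≠ v j ∧ v i ≠ -v j) (w : I → ℕ) {W : ℕ} (hW : 0 < W)
    (hw : ∀ i, 0 < w i ∧ w i ∣ W) (hp : ∀ i, 0 < L.marg i) {η : ℝ} (hη : 0 < η) :
    ∃ q₀ : ℕ, ∀ q ≥ q₀, q.Prime →
      ∃ o : ZMod (2 * q) → Col, (∀ B, o (-1 - B) = L.neg (o B)) ∧
        (∀ i, |(Nat.card {B // L.has (o B) i} : ℝ) - 2 * q * L.marg i| ≤ η * (2 * q)) ∧
        ∀ i, (∑ᶠ B : {B // L.has (o B) i}, ∑ l ∈ Finset.range (W / w i),
            |(Nat.card {x : (Fin R → ZMod (2 * q)) × Fin W // Good L q W v w o x ∧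
              StartsAt q W v w i x
                (((W : ℤ) * ((B : ZMod (2 * q)).val : ℤ) + (w i * l : ℕ) : ℤ) :
                  ZMod (2 * q * W))} : ℝ) -
              w i * (2 * q : ℝ) ^ (R - 1) * ∏ j ∈ Finset.univ.erase i, L.marg j|) ≤
          η * ((2 * q : ℝ) * ((W / w i : ℕ) : ℝ) *
            (w i * (2 * q : ℝ) ^ (R - 1) * ∏ j ∈ Finset.univ.erase i, L.marg j)) := by
  obtain ⟨N₀, hN₀⟩ := exists_generic_fibre v hprim hdist
  set n : ℝ := (Fintype.card I : ℝ) + 1 with hn
  have hn1 : 0 < n := by positivity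
  set rest : I → ℝ := fun i => ∏ j ∈ univ.erase i, L.marg j with hrest
  have hr : ∀ i, 0 < rest i := fun i => prod_pos fun j _ => hp j
  set Q : ℝ := (∑ i, 48 * n ^ 4 / (η ^ 2 * rest i ^ 2)) + 4 * n ^ 2 / η ^ 2 with hQ
  refine ⟨N₀ + ⌈Q⌉₊ + 3, fun q hq hprime => ?_⟩
  have := Fact.mk hprime
  have hq0 : 0 < q := by omega
  have : NeZero (2 * q) := ⟨by omega⟩
  have hG := hN₀ q (by omega)
  have hqQ : Q < q := lt_of_le_of_lt (Nat.le_ceil _) (by exact_mod_cast (by omega : ⌈Q⌉₊ < q))
  have hq' : (0 : ℝ) < q := by exact_mod_cast hq0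
  have hd : ∀ i, 0 < W / w i := fun i => Nat.div_pos (Nat.le_of_dvd hW (hw i).2) (hw i).1
  let K : I → ℝ := fun i => (w i : ℝ) * (2 * q : ℝ) ^ (R - 1)
  have hK : ∀ i, 0 < K i := fun i =>
    mul_pos (by exact_mod_cast (hw i).1) (pow_pos (by positivity) _)
  let X : I → ℕ → ZMod (2 * q) → (Fin q → Col) → ℝ := fun i l B f =>
    ∑ x ∈ Slots q R W (W / w i) l with blk q W v w i x = B, ind L hq0 W v w f x -
      K i * rest i * own L hq0 f B i
  let dev : I → (Fin q → Col) → ℝ := fun i f =>
    ∑ l ∈ range (W / w i), ∑ B, |X i l B f|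
  let cnt : I → (Fin q → Col) → ℝ := fun i f => |∑ B, own L hq0 f B i - 2 * q * L.marg i|
  let D : I → ℝ := fun i => η * (2 * q * ((W / w i : ℕ) : ℝ) * (K i * rest i))
  have hD : ∀ i, 0 < D i := fun i => by
    have := hr i; have := hK i; have : (0 : ℝ) < (W / w i : ℕ) := by exact_mod_cast hd i
    positivity
  have term : ∀ i, (D i)⁻¹ * av L (dev i) + (η * (2 * q))⁻¹ * av L (cnt i) < 1 / n := by
    intro i
    have hri := hr i
    have hKi := hK i
    have hdi : (0 : ℝ) < (W / w i : ℕ) := by exact_mod_cast hd i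
    have hQi : 48 * n ^ 4 / (η ^ 2 * rest i ^ 2) < q ∧ 4 * n ^ 2 / η ^ 2 < q := by
      have h1 := single_le_sum (f := fun i => 48 * n ^ 4 / (η ^ 2 * rest i ^ 2))
        (fun j _ => by positivity) (mem_univ i)
      have h2 : 0 ≤ ∑ i, 48 * n ^ 4 / (η ^ 2 * rest i ^ 2) := sum_nonneg fun j _ => by positivity
      have h3 : 0 ≤ 4 * n ^ 2 / η ^ 2 := by positivity
      constructor <;> linarith
    rw [div_lt_iff₀ (by positivity), div_lt_iff₀ (by positivity)] at hQi
    set ρ := η * rest i / (2 * n)
    have hρ : 0 < ρ := by positivity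
    have hnI : (Fintype.card I : ℝ) ^ 2 ≤ n ^ 2 := by gcongr; linarith
    have e1 : av L (dev i) ≤
        (W / w i : ℕ) * (12 * n ^ 2 * K i / ρ + ρ * K i * q) := by
      simp only [dev]
      rw [av_sum]
      calc ∑ l ∈ range (W / w i), av L (fun f => ∑ B, |X i l B f|)
          ≤ ∑ l ∈ range (W / w i), (12 * n ^ 2 * K i / ρ + ρ * K i * q) := by
            refine sum_le_sum fun l hl => ?_
            refine (av_abs L univ (X i l) (lam := ρ * K i) (b := 24 * n ^ 2 * K i ^ 2)
              (by positivity) ((moment L hG hR hq0 i (hw i).1 (hw i).2 (mem_range.1 hl)).trans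
                (by simp only [K]; gcongr))).trans (le_of_eq ?_)
            rw [card_univ, ZMod.card]
            push_cast
            field_simp
            ring
        _ = _ := by rw [sum_const, card_range, nsmul_eq_mul]
    have e2 := count_bound L hq0 i (ρ := η / (2 * n)) (by positivity)
    have f1 : (D i)⁻¹ * av L (dev i) < 1 / (2 * n) := by
      rw [inv_mul_lt_iff₀ (hD i)]
      refine e1.trans_lt ?_
      have e : D i * (1 / (2 * n)) - (W / w i : ℕ) * (12 * n ^ 2 * K i / ρ + ρ * K i * q) =
          (W / w i : ℕ) * K i / (2 * η * rest i * n) *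
            (q * (η ^ 2 * rest i ^ 2) - 48 * n ^ 4) := by
        simp only [D, ρ]
        field_simp
        ring
      have : 0 < (W / w i : ℕ) * K i / (2 * η * rest i * n) *
            (q * (η ^ 2 * rest i ^ 2) - 48 * n ^ 4) :=
        mul_pos (by positivity) (by linarith [hQi.1])
      linarith
    have f2 : (η * (2 * q))⁻¹ * av L (cnt i) < 1 / (2 * n) := by
      rw [inv_mul_lt_iff₀ (by positivity)]
      refine e2.trans_lt ?_
      have e : η * (2 * q) * (1 / (2 * n)) - (1 / (η / (2 * n)) + η / (2 * n) * q) =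
          (q * η ^ 2 - 4 * n ^ 2) / (2 * n * η) := by
        field_simp
        ring
      have : 0 < (q * η ^ 2 - 4 * n ^ 2) / (2 * n * η) :=
        div_pos (by linarith [hQi.2]) (by positivity)
      linarith
    calc _ < 1 / (2 * n) + 1 / (2 * n) := add_lt_add f1 f2
      _ = 1 / n := by field_simp; ring
  obtain ⟨f, hf⟩ := exists_le_av L (q := q)
    (F := fun f => ∑ i, ((D i)⁻¹ * dev i f + (η * (2 * q))⁻¹ * cnt i f)) (b := 1) (by
    rw [av_sum]
    simp only [av_add, av_mul]
    refine (sum_le_sum fun i _ => (term i).le).trans_lt ?_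
    rw [sum_const, card_univ, nsmul_eq_mul, mul_one_div, div_lt_one hn1]
    linarith)
  have hdev0 : ∀ i, 0 ≤ dev i f := fun i =>
    sum_nonneg fun l _ => sum_nonneg fun B _ => abs_nonneg _
  have each : ∀ i, dev i f ≤ D i ∧ cnt i f ≤ η * (2 * q) := by
    intro i
    have h1 : 0 ≤ (D i)⁻¹ * dev i f := mul_nonneg (inv_nonneg.2 (hD i).le) (hdev0 i)
    have h2 : 0 ≤ (η * (2 * q))⁻¹ * cnt i f := mul_nonneg (by positivity) (abs_nonneg _)
    have h3 := single_le_sum (f := fun i => (D i)⁻¹ * dev i f + (η * (2 * q))⁻¹ * cnt i f)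
      (fun j _ => add_nonneg (mul_nonneg (inv_nonneg.2 (hD j).le) (hdev0 j))
        (mul_nonneg (by positivity) (abs_nonneg _))) (mem_univ i)
    constructor
    · have : (D i)⁻¹ * dev i f ≤ 1 := by linarith
      rwa [inv_mul_le_iff₀ (hD i), mul_one] at this
    · have : (η * (2 * q))⁻¹ * cnt i f ≤ 1 := by linarith
      rwa [inv_mul_le_iff₀ (by positivity), mul_one] at this
  refine ⟨mk L hq0 f, anti_mk L hq0 f, fun i => ?_, fun i => ?_⟩
  · have : (Nat.card {B // L.has (mk L hq0 f B) i} : ℝ) = ∑ B, own L hq0 f B i := by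
      rw [Nat.card_eq_fintype_card, Fintype.card_subtype, natCast_card_filter]
      rfl
    rw [this]
    exact (each i).2
  · refine le_trans ?_ (each i).1
    rw [finsum_eq_sum_of_fintype]
    simp only [dev]
    rw [sum_comm (s := (univ : Finset {B // L.has (mk L hq0 f B) i}))]
    refine sum_le_sum fun l hl => ?_
    calc _ = ∑ B : {B // L.has (mk L hq0 f B) i}, |X i l B f| := by
          refine sum_congr rfl fun B _ => ?_
          rw [slot_card L hq0 v w f i hW (hw i).1 (hw i).2 (mem_range.1 hl) B]
          simp [X, K, own, B.2, hrest]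
      _ = ∑ B ∈ univ.filter (fun B => L.has (mk L hq0 f B) i), |X i l B f| :=
          (sum_subtype _ (by simp) (fun B => |X i l B f|)).symm
      _ ≤ _ := sum_le_sum_of_subset_of_nonneg (filter_subset _ _) fun B _ _ => abs_nonneg _

end Vale.Agent.P130.Full.Core.OwnerColours

namespace Vale.Agent.P130.Full.Core

open Finset
open scoped Classical

/-- Module Owner. -/
theorem owner : OwnerStatement := by
  intro I _ _ R hR C v hprim hdist hp w W hW hw η hη
  let _ := C.fintype
  let L : OwnerColours.Law (C.Col × Bool) I :=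
    { wgt := fun x => C.weight x.1 / 2
      nonneg := fun x => by linarith [C.weight_nonneg x.1]
      total := by
        rw [Fintype.sum_prod_type]
        simp only [Fintype.sum_bool, add_halves]
        exact C.weight_sum
      neg := fun x => (x.1, !x.2)
      invol := fun x => by simp
      wgt_neg := fun x => rfl
      has := fun x i => C.Has x (v i) }
  have hm : ∀ i, L.marg i = C.prob (v i) := fun i => by
    simp only [OwnerColours.Law.marg, L, Colours.prob, Fintype.sum_prod_type, Fintype.sum_bool,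
      Colours.Has, if_true, if_false, Bool.false_eq_true, sum_add_distrib]
    have h := C.symm (v i)
    have e : ∀ (P : C.Col → Prop) [DecidablePred P], ∑ x, (if P x then C.weight x / 2 else 0) =
        (∑ x, if P x then C.weight x else 0) / 2 := fun P _ => by
      rw [sum_div]
      exact sum_congr rfl fun x _ => by split_ifs <;> simp
    rw [e, e]
    linarith
  obtain ⟨q₀, hq₀⟩ := OwnerColours.exists_owner L hR v hprim hdist w hW hw
    (fun i => (hm i).symm ▸ hp i) hη
  refine ⟨q₀, fun q hq hprime => ?_⟩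
  obtain ⟨o, ho, h1, h2⟩ := hq₀ q hq hprime
  refine ⟨o, ho, fun i => ?_, fun i => ?_⟩
  · have := h1 i
    rwa [hm] at this
  · have := h2 i
    simp only [hm] at this
    exact this

end Vale.Agent.P130.Full.Core
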