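import Vale.Agent.P130.Full.Core.Profile.Bounds

/-!
Module Profile: the staircase with quadratically spaced cells.
-/

noncomputable section

namespace Vale.Agent.P130.Full.Core.Profile

open Finset Real
open Vale.Agent.P110.Full (ch)

theorem exists_par (hC : ChirpStatement) {η δ : ℝ} (hη : 0 < η) (hδ : 0 < δ) :
    ∃ P : Par, 64 * P.e ≤ η ∧ P.δ ≤ δ := by
  set e := min (η / 64) (1 / 200) with he'
  set d := min δ (1 / 4) with hd'
  have he : 0 < e := lt_min (by linarith) (by norm_num)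
  have hd : 0 < d := lt_min hδ (by norm_num)
  obtain ⟨T₀, hT⟩ := hC e he
  set N0 := ⌈1 / e⌉₊ + 2 with hN0
  have hN0' : 1 / e ≤ (N0 : ℝ) - 1 := by
    rw [hN0]; push_cast; linarith [Nat.le_ceil (1 / e)]
  set k := ⌈2 * (N0 : ℝ) / (e * d)⌉₊
  set c := (k : ℝ) + 1 with hc'
  have hc : 0 < c := by positivity
  have hk : 2 * (N0 : ℝ) / (e * d) ≤ c := by linarith [Nat.le_ceil (2 * (N0 : ℝ) / (e * d))]
  have hN : (0 : ℝ) < N0 := by
    rw [hN0]; push_cast; positivity
  set r1 := 1 / c * N0 / (e * d) ^ 2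
  set r2 := 1 / (e * (1 / c) * d)
  set r3 := 40 * N0 * c / d ^ 3
  set r4 := 128 * (N0 : ℝ) ^ 3 * c ^ 2 / d ^ 6
  set r5 := |T₀| / (1 / c * (d / 2))
  obtain ⟨A, hA⟩ := exists_nat_ge (1 + r1 + r2 + r3 + r4 + r5)
  have p1 : 0 ≤ r1 := by positivity
  have p2 : 0 ≤ r2 := by positivity
  have p3 : 0 ≤ r3 := by positivity
  have p4 : 0 ≤ r4 := by positivity
  have p5 : 0 ≤ r5 := by positivity
  have hA0 : (0 : ℝ) < A := by linarith
  set F := ⌈16 * ((N0 * A : ℕ) : ℝ) / e⌉₊ + 1 with hF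
  refine ⟨{ A := A, k := k, F := F, N0 := N0, e := e, δ := d, A_pos := Nat.cast_pos.1 hA0,
            F_pos := Nat.succ_pos _, e_pos := he, e_small := min_le_right _ _, δ_pos := hd,
            δ_small := min_le_right _ _, N0_two := Nat.le_add_left 2 _, N0_tail := ?_,
            k_big := ?_, A_sq := ?_, A_len := ?_, A_div := ?_, A_div' := ?_, F_big := ?_,
            T₀ := T₀, chirp := hT, T_le := ?_ }, ?_, min_le_left _ _⟩
  · exact (one_div_le (lt_of_lt_of_le (by positivity) hN0') he).2 hN0'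
  · rw [← hc', show 2 * (1 / c) * (N0 : ℝ) = 2 * N0 / c by ring, div_le_iff₀ hc]
    rw [div_le_iff₀ (by positivity)] at hk
    linarith
  · rw [← hc']
    have h : r1 ≤ A := by linarith
    rw [div_le_iff₀ (by positivity)] at h
    linarith
  · rw [← hc']
    have h : r2 ≤ A := by linarith
    rw [div_le_iff₀ (by positivity)] at h
    linarith
  · rw [← hc', div_le_iff₀ (by positivity)]
    have h : r3 ≤ A := by linarith
    rw [div_le_iff₀ (by positivity)] at h
    linarith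
  · rw [← hc', show (4 * N0 * c / (d ^ 3 * A)) ^ 2 * (N0 * A) =
      16 * (N0 : ℝ) ^ 3 * c ^ 2 / (d ^ 6 * A) by field_simp; ring, div_le_iff₀ (by positivity)]
    have h : r4 ≤ A := by linarith
    rw [div_le_iff₀ (by positivity)] at h
    linarith
  · have h1 : (F : ℝ) ≤ size A k F := by
      have hA' : 0 < A := Nat.cast_pos.1 hA0
      exact_mod_cast Nat.le_mul_of_pos_right F
        (show 0 < A * A * (2 * k + 1) + A * A by positivity)
    have h2 : 16 * ((N0 * A : ℕ) : ℝ) / e ≤ F := by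
      rw [hF, Nat.cast_add_one]
      linarith [Nat.le_ceil (16 * ((N0 * A : ℕ) : ℝ) / e)]
    rw [mul_comm e]
    exact (div_le_iff₀ he).1 (h2.trans h1)
  · rw [← hc']
    have h : r5 ≤ A := by linarith
    rw [div_le_iff₀ (by positivity)] at h
    linarith [le_abs_self T₀]
  · show 64 * e ≤ η
    linarith [min_le_left (η / 64) (1 / 200 : ℝ)]

theorem profile (hC : ChirpStatement) : ProfileStatement := by
  intro R hR η hη δ hδ
  obtain ⟨P, he, hd⟩ := exists_par hC hη hδ
  refine ⟨P.A, size P.A P.k P.F, stair P.A P.k P.F,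
    fun i => (i : ℕ) / size P.A P.k P.F, P.V, P.pw, P.lo, P.hi,
    size_pos P.A_pos P.F_pos, fun x => lvl_le _ _ _ _,
    fun v hv => ?_, fun v hv w hw hne => P.orth hv hw hne, P.sum_le_one, fun ψ hψ => ?_⟩
  · obtain ⟨h1, h2, h3, h4, h5, h6, h7, -⟩ := P.mem_V hv
    exact ⟨h1, h2, h3, h4, h5, h6, h7⟩
  have hψ' : ψ ∈ Set.Icc P.δ (1 - P.δ) := ⟨hd.trans hψ.1, hψ.2.trans (by linarith)⟩
  refine ⟨by linarith [P.lower hψ', P.e_pos],
    fun D => (P.div_bound hψ' R hR D).trans (by linarith), ?_⟩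
  obtain ⟨γ, h1, h2⟩ := P.error hψ'
  exact ⟨γ, h1, fun x => (h2 x).trans
    (mul_le_mul_of_nonneg_right (by linarith [P.e_pos]) P.lt_size.1.le)⟩

end Vale.Agent.P130.Full.Core.Profile

namespace Vale.Agent.P130.Full.Core

theorem profile (hC : ChirpStatement) : ProfileStatement := Profile.profile hC

end Vale.Agent.P130.Full.Core
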