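import Mathlib
import Vale.Agent.P130.Full.Core.Statements

/-!
Sets of frequencies made of cells `[k / P, (k + 1) / P)` taken modulo one, and the spectrum of a
sum of lines on disjoint arcs.
-/

noncomputable section

namespace Vale.Agent.P130.Full.Core.Sequence

open Finset MeasureTheory

/-- The frequencies whose cell modulo one lies in `S`. -/
def cellSet {P : ℕ} (S : Set (ZMod P)) : Set ℝ :=
  {u | ((⌊(P : ℝ) * u⌋ : ℤ) : ZMod P) ∈ S}

/-- The cells `a, …, a + w - 1`. -/
def arc (P : ℕ) (a : ℤ) (w : ℕ) : Set (ZMod P) := {y | ∃ t < w, ((a + t : ℤ) : ZMod P) = y}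

theorem measurableSet_cellSet {P : ℕ} (S : Set (ZMod P)) : MeasurableSet (cellSet S) := by
  have h : Measurable fun u : ℝ => ⌊(P : ℝ) * u⌋ := (measurable_const_mul _).floor
  exact h (MeasurableSet.of_discrete (s := {k : ℤ | ((k : ℤ) : ZMod P) ∈ S}))

theorem mem_cellSet_add_one {P : ℕ} {S : Set (ZMod P)} (u : ℝ) :
    u + 1 ∈ cellSet S ↔ u ∈ cellSet S := by
  have h : (P : ℝ) * (u + 1) = (P : ℝ) * u + ((P : ℤ) : ℝ) := by push_cast; ring
  simp [cellSet, h, Int.floor_add_natCast]

theorem periodic_cellSet {P : ℕ} (S : Set (ZMod P)) (c : ℝ) :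
    Function.Periodic ((cellSet S).indicator fun _ => c) 1 := fun u => by
  by_cases h : u ∈ cellSet S
  · simp [h, (mem_cellSet_add_one u).2 h]
  · simp [h, mt (mem_cellSet_add_one u).1 h]

theorem integrable_cellSet {P : ℕ} (S : Set (ZMod P)) (c a b : ℝ) :
    IntervalIntegrable ((cellSet S).indicator fun _ => c) volume a b := by
  rw [intervalIntegrable_iff]
  exact intervalIntegrable_const.def'.indicator (measurableSet_cellSet S)

theorem mem_arc_shift {P : ℕ} (hP : 0 < P) (a : ℤ) (w : ℕ) (u : ℝ) :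
    u ∈ cellSet (arc P a w) ↔ u - (a : ℝ) / P ∈ cellSet (arc P 0 w) := by
  have hP' : (P : ℝ) ≠ 0 := Nat.cast_ne_zero.2 hP.ne'
  have h : (P : ℝ) * (u - (a : ℝ) / P) = (P : ℝ) * u - (a : ℝ) := by field_simp
  simp only [cellSet, arc, Set.mem_ofPred_eq, h, Int.floor_sub_intCast, Int.cast_add,
    Int.cast_sub, zero_add]
  constructor <;> rintro ⟨t, ht, he⟩ <;> refine ⟨t, ht, ?_⟩ <;> linear_combination he

theorem mem_arc_zero {P w : ℕ} (hP : 0 < P) (hwP : w ≤ P) {u : ℝ} (h0 : 0 ≤ u) (h1 : u < 1) :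
    u ∈ cellSet (arc P 0 w) ↔ u < (w : ℝ) / P := by
  have hP' : (0 : ℝ) < P := Nat.cast_pos.2 hP
  set k := ⌊(P : ℝ) * u⌋ with hk
  have hk0 : 0 ≤ k := Int.floor_nonneg.2 (by positivity)
  have hk1 : k < (P : ℤ) := Int.floor_lt.2 (by push_cast; nlinarith)
  have hiff : u < (w : ℝ) / P ↔ k < (w : ℤ) := by
    rw [hk, Int.floor_lt, lt_div_iff₀ hP', mul_comm u]
    norm_num
  rw [hiff]
  simp only [cellSet, arc, Set.mem_ofPred_eq, ← hk, zero_add]
  constructor
  · rintro ⟨t, ht, he⟩
    rw [ZMod.intCast_eq_intCast_iff'] at he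
    rw [Int.emod_eq_of_lt (by positivity) (by omega), Int.emod_eq_of_lt hk0 hk1] at he
    omega
  · exact fun h => ⟨k.toNat, by omega, by rw [Int.toNat_of_nonneg hk0]⟩

theorem shift_integral {g : ℝ → ℝ} (hg : Function.Periodic g 1) (c : ℝ) :
    ∫ u in (0 : ℝ)..1, g (u - c) = ∫ u in (0 : ℝ)..1, g u := by
  rw [intervalIntegral.integral_comp_sub_right, show (1 : ℝ) - c = (0 - c) + 1 by ring,
    hg.intervalIntegral_add_eq (0 - c) 0, zero_add]

theorem neg_integral {g : ℝ → ℝ} (hg : Function.Periodic g 1) :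
    ∫ u in (0 : ℝ)..1, g (-u) = ∫ u in (0 : ℝ)..1, g u := by
  rw [intervalIntegral.integral_comp_neg, neg_zero, show (0 : ℝ) = -1 + 1 by ring,
    hg.intervalIntegral_add_eq (-1) 0, zero_add]
  norm_num

theorem integral_congr_Ioo {f g : ℝ → ℝ} (h : ∀ u ∈ Set.Ioo (0 : ℝ) 1, f u = g u) :
    ∫ u in (0 : ℝ)..1, f u = ∫ u in (0 : ℝ)..1, g u := by
  refine intervalIntegral.integral_congr_ae ?_
  filter_upwards [compl_mem_ae_iff.2 (measure_singleton (1 : ℝ))] with u hu hu'
  rw [Set.uIoc_of_le zero_le_one] at hu'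
  exact h u ⟨hu'.1, lt_of_le_of_ne hu'.2 hu⟩

theorem integral_arc {P w : ℕ} (hP : 0 < P) (hwP : w ≤ P) (a : ℤ) (c : ℝ) :
    ∫ u in (0 : ℝ)..1, (cellSet (arc P a w)).indicator (fun _ => c) u = c * ((w : ℝ) / P) := by
  have h : ∀ u, (cellSet (arc P a w)).indicator (fun _ => c) u =
      (cellSet (arc P 0 w)).indicator (fun _ => c) (u - (a : ℝ) / P) := fun u => by
    by_cases hu : u ∈ cellSet (arc P a w)
    · simp [hu, (mem_arc_shift hP a w u).1 hu]
    · simp [hu, mt (mem_arc_shift hP a w u).2 hu]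
  simp only [h]
  rw [shift_integral (periodic_cellSet _ c)]
  have hwP' : (w : ℝ) / P ≤ 1 := by
    rw [div_le_one (Nat.cast_pos.2 hP)]; exact_mod_cast hwP
  have hb : (0 : ℝ) ≤ (w : ℝ) / P := by positivity
  rw [← intervalIntegral.integral_add_adjacent_intervals
    (integrable_cellSet _ c 0 ((w : ℝ) / P)) (integrable_cellSet _ c _ 1)]
  have h1 : ∫ u in (0 : ℝ)..((w : ℝ) / P), (cellSet (arc P 0 w)).indicator (fun _ => c) u =
      ∫ _ in (0 : ℝ)..((w : ℝ) / P), c := by
    refine intervalIntegral.integral_congr_ae ?_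
    filter_upwards [compl_mem_ae_iff.2 (measure_singleton ((w : ℝ) / P))] with u hu hu'
    rw [Set.uIoc_of_le hb] at hu'
    have hlt : u < (w : ℝ) / P := lt_of_le_of_ne hu'.2 hu
    exact Set.indicator_of_mem ((mem_arc_zero hP hwP hu'.1.le (lt_of_lt_of_le hlt hwP')).2 hlt) _
  have h2 : ∫ u in ((w : ℝ) / P)..1, (cellSet (arc P 0 w)).indicator (fun _ => c) u =
      ∫ _ in ((w : ℝ) / P)..1, (0 : ℝ) := by
    refine intervalIntegral.integral_congr_ae ?_
    filter_upwards [compl_mem_ae_iff.2 (measure_singleton (1 : ℝ))] with u hu hu'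
    rw [Set.uIoc_of_le hwP'] at hu'
    refine Set.indicator_of_notMem (fun hm => ?_) _
    have := (mem_arc_zero hP hwP (hb.trans hu'.1.le) (lt_of_le_of_ne hu'.2 hu)).1 hm
    linarith [hu'.1]
  rw [h1, h2]
  simp [mul_comm]

theorem indicator_finset {P : ℕ} (S : Finset (ZMod P)) [NeZero P] (c u : ℝ) :
    (cellSet (S : Set (ZMod P))).indicator (fun _ => c) u =
      ∑ y ∈ S, (cellSet (arc P (y.val : ℤ) 1)).indicator (fun _ => c) u := by
  classical
  set z := ((⌊(P : ℝ) * u⌋ : ℤ) : ZMod P) with hz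
  have h : ∀ y : ZMod P, (cellSet (arc P (y.val : ℤ) 1)).indicator (fun _ => c) u =
      if z = y then c else 0 := fun y => by
    have : u ∈ cellSet (arc P (y.val : ℤ) 1) ↔ z = y := by
      simp [cellSet, arc, ← hz, eq_comm]
    rw [Set.indicator_apply, if_congr this rfl rfl]
  simp only [h, Finset.sum_ite_eq]
  rw [Set.indicator_apply]
  exact if_congr (by simp [cellSet, ← hz]) rfl rfl

theorem integral_finset {P : ℕ} (hP : 0 < P) (S : Finset (ZMod P)) (c : ℝ) :
    ∫ u in (0 : ℝ)..1, (cellSet (S : Set (ZMod P))).indicator (fun _ => c) u =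
      c * ((S.card : ℝ) / P) := by
  have : NeZero P := ⟨hP.ne'⟩
  simp only [indicator_finset]
  rw [intervalIntegral.integral_finsetSum fun y _ => integrable_cellSet _ c 0 1]
  simp only [integral_arc hP hP, Finset.sum_const, nsmul_eq_mul, Nat.cast_one]
  ring

/-- Lines with flat spectra on disjoint arcs add up to a flat spectrum on the union. -/
theorem lines_error {ι : Type} [Fintype ι] [DecidableEq ι] {τ : ℕ} (z : ι → ℝ → ℂ)
    (L : ι → ℝ → ℂ) (T : ι → ℝ → ℝ) {η s : ℝ} (hs : 0 < s)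
    (hz : ∀ i u, ‖z i u‖ = 1) (hzc : ∀ i, Continuous (z i)) (hL : ∀ i, Continuous (L i))
    (hT : ∀ i, IntervalIntegrable (T i) volume 0 1)
    (hdis : ∀ u i i', i ≠ i' → T i u = 0 ∨ T i' u = 0)
    (herr : ∀ i, ∫ u in (0 : ℝ)..1, |‖L i u‖ ^ 2 / τ - T i u| ≤ η)
    (hmass : ∀ i, ∫ u in (0 : ℝ)..1, T i u ≤ 1) :
    ∫ u in (0 : ℝ)..1, |‖∑ i, z i u * L i u‖ ^ 2 / τ - ∑ i, T i u| ≤
      (Fintype.card ι : ℝ) * η + (Fintype.card ι : ℝ) ^ 2 * (s * (1 + η) + η / s) := by
  set a : ι → ℝ → ℝ := fun i u => ‖L i u‖ ^ 2 / τ with ha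
  set e : ι → ℝ → ℝ := fun i u => |a i u - T i u| with he
  have hai : ∀ i, IntervalIntegrable (a i) volume 0 1 := fun i =>
    (((hL i).norm.pow 2).div_const _).intervalIntegrable 0 1
  have hei : ∀ i, IntervalIntegrable (e i) volume 0 1 := fun i => ((hai i).sub (hT i)).abs
  set pair : ι → ι → ℝ → ℝ := fun i i' u =>
    s / 2 * (a i u + a i' u) + (e i u + e i' u) / (2 * s) with hpair
  have hpi : ∀ i i', IntervalIntegrable (pair i i') volume 0 1 := fun i i' =>
    (((hai i).add (hai i')).const_mul _).add (((hei i).add (hei i')).div_const _)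
  have hpt : ∀ u, |‖∑ i, z i u * L i u‖ ^ 2 / τ - ∑ i, T i u| ≤
      ∑ i, (e i u + ∑ i' ∈ univ.erase i, pair i i' u) := by
    intro u
    have hexp : ((‖∑ i, z i u * L i u‖ ^ 2 : ℝ) : ℂ) = ∑ i, (((‖L i u‖ ^ 2 : ℝ) : ℂ) +
        ∑ i' ∈ univ.erase i, z i u * L i u * (starRingEnd ℂ) (z i' u * L i' u)) := by
      rw [Complex.ofReal_pow, ← Complex.mul_conj', map_sum, Finset.sum_mul_sum]
      refine Finset.sum_congr rfl fun i _ => ?_
      rw [← Finset.add_sum_erase _ _ (Finset.mem_univ i), Complex.mul_conj', Complex.ofReal_pow,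
        norm_mul, hz, one_mul]
    have hnorm : |‖∑ i, z i u * L i u‖ ^ 2 - ∑ i, ‖L i u‖ ^ 2| ≤
        ∑ i, ∑ i' ∈ univ.erase i, ‖L i u‖ * ‖L i' u‖ := by
      rw [← Real.norm_eq_abs, ← Complex.norm_real, Complex.ofReal_sub, hexp,
        Finset.sum_add_distrib, Complex.ofReal_sum, add_sub_cancel_left]
      refine (norm_sum_le _ _).trans (Finset.sum_le_sum fun i _ => ?_)
      refine (norm_sum_le _ _).trans (le_of_eq (Finset.sum_congr rfl fun i' _ => ?_))
      rw [norm_mul, Complex.norm_conj, norm_mul, norm_mul, hz, hz, one_mul, one_mul]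
    have hsplit : ‖∑ i, z i u * L i u‖ ^ 2 / τ - ∑ i, T i u =
        (‖∑ i, z i u * L i u‖ ^ 2 - ∑ i, ‖L i u‖ ^ 2) / τ + ∑ i, (a i u - T i u) := by
      simp only [ha, Finset.sum_sub_distrib, ← Finset.sum_div]
      ring
    rw [hsplit]
    refine (abs_add_le _ _).trans ?_
    rw [abs_div, Nat.abs_cast, Finset.sum_add_distrib, add_comm]
    refine add_le_add (Finset.abs_sum_le_sum_abs _ _) ?_
    refine (div_le_div_of_nonneg_right hnorm (Nat.cast_nonneg τ)).trans ?_
    simp only [Finset.sum_div]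
    refine Finset.sum_le_sum fun i _ => Finset.sum_le_sum fun i' hi' => ?_
    have key : ∀ j j', T j u = 0 →
        ‖L j u‖ * ‖L j' u‖ / τ ≤ s / 2 * a j' u + e j u / (2 * s) := fun j j' hj => by
      have hje : ‖L j u‖ ^ 2 / τ ≤ e j u := by
        have h := le_abs_self (a j u - T j u)
        rw [hj, sub_zero] at h
        simpa [he, ha, hj] using h
      have h0 : 0 ≤ (‖L j u‖ / (2 * s) - ‖L j' u‖ / 2) ^ 2 * (2 * s) / τ := by positivity
      have h2 : (‖L j u‖ / (2 * s) - ‖L j' u‖ / 2) ^ 2 * (2 * s) / τ =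
          ‖L j u‖ ^ 2 / τ / (2 * s) - ‖L j u‖ * ‖L j' u‖ / τ + s / 2 * a j' u := by
        simp only [ha]
        field_simp
        ring
      linarith [div_le_div_of_nonneg_right hje (by positivity : (0 : ℝ) ≤ 2 * s)]
    have h0 : ∀ j, 0 ≤ e j u / (2 * s) ∧ 0 ≤ s / 2 * a j u := fun j =>
      ⟨div_nonneg (abs_nonneg _) (by positivity), by simp only [ha]; positivity⟩
    simp only [hpair, mul_add, add_div]
    rcases hdis u i i' (mem_erase.1 hi').1.symm with h | h
    · linarith [key i i' h, h0 i, h0 i']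
    · have := key i' i h
      rw [mul_comm ‖L i' u‖] at this
      linarith [h0 i, h0 i']
  have hinner : ∀ i, IntervalIntegrable (fun u => ∑ i' ∈ univ.erase i, pair i i' u) volume 0 1 :=
    fun i => by
      rw [show (fun u => ∑ i' ∈ univ.erase i, pair i i' u) = ∑ i' ∈ univ.erase i, pair i i' from
        funext fun u => (Finset.sum_apply _ _ _).symm]
      exact IntervalIntegrable.sum _ fun i' _ => hpi i i'
  have hleft : IntervalIntegrable (fun u => |‖∑ i, z i u * L i u‖ ^ 2 / τ - ∑ i, T i u|) volume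
      0 1 := by
    refine IntervalIntegrable.abs (IntervalIntegrable.sub ?_ ?_)
    · exact ((((continuous_finsetSum _ fun i _ => (hzc i).mul (hL i)).norm.pow 2)).div_const
        _).intervalIntegrable 0 1
    · rw [show (fun u => ∑ i, T i u) = ∑ i, T i from funext fun u => (Finset.sum_apply _ _ _).symm]
      exact IntervalIntegrable.sum _ fun i _ => hT i
  have hright : IntervalIntegrable (fun u => ∑ i, (e i u + ∑ i' ∈ univ.erase i, pair i i' u))
      volume 0 1 := by
    rw [show (fun u => ∑ i, (e i u + ∑ i' ∈ univ.erase i, pair i i' u)) =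
      ∑ i, (fun u => e i u + ∑ i' ∈ univ.erase i, pair i i' u) from
      funext fun u => (Finset.sum_apply u univ
        (fun i u => e i u + ∑ i' ∈ univ.erase i, pair i i' u)).symm]
    exact IntervalIntegrable.sum _ fun i _ => (hei i).add (hinner i)
  refine (intervalIntegral.integral_mono_on zero_le_one hleft hright fun u _ => hpt u).trans ?_
  rw [intervalIntegral.integral_finsetSum fun i _ => (hei i).add (hinner i)]
  refine (Finset.sum_le_card_nsmul _ _ (η + (Fintype.card ι : ℝ) * (s * (1 + η) + η / s))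
    fun i _ => ?_).trans (le_of_eq (by rw [nsmul_eq_mul, Finset.card_univ]; ring))
  rw [intervalIntegral.integral_add (hei i) (hinner i)]
  refine add_le_add (herr i) ?_
  rw [intervalIntegral.integral_finsetSum fun i' _ => hpi i i']
  have hη0 : 0 ≤ η :=
    le_trans (intervalIntegral.integral_nonneg zero_le_one fun u _ => abs_nonneg _) (herr i)
  have haint : ∀ j, ∫ u in (0 : ℝ)..1, a j u ≤ 1 + η := fun j => by
    refine le_trans (intervalIntegral.integral_mono_on zero_le_one (hai j) ((hT j).add (hei j))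
      fun u _ => ?_) ?_
    · simp only [he]; linarith [le_abs_self (a j u - T j u)]
    · rw [intervalIntegral.integral_add (hT j) (hei j)]
      exact add_le_add (hmass j) (herr j)
  refine (Finset.sum_le_card_nsmul _ _ (s * (1 + η) + η / s) fun i' _ => ?_).trans ?_
  · simp only [hpair]
    rw [intervalIntegral.integral_add (((hai i).add (hai i')).const_mul _)
        (((hei i).add (hei i')).div_const _),
      intervalIntegral.integral_const_mul, intervalIntegral.integral_div,
      intervalIntegral.integral_add (hai i) (hai i'), intervalIntegral.integral_add (hei i) (hei i')]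
    have h1 : (∫ u in (0 : ℝ)..1, e i u) + (∫ u in (0 : ℝ)..1, e i' u) ≤ η + η :=
      add_le_add (herr i) (herr i')
    have h2 := div_le_div_of_nonneg_right h1 (by positivity : (0 : ℝ) ≤ 2 * s)
    rw [show (η + η) / (2 * s) = η / s by field_simp; ring] at h2
    have h3 := mul_le_mul_of_nonneg_left (add_le_add (haint i) (haint i'))
      (by positivity : (0 : ℝ) ≤ s / 2)
    linarith
  · rw [nsmul_eq_mul]
    exact mul_le_mul_of_nonneg_right (Nat.cast_le.2 (Finset.card_le_univ _)) (by positivity)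

end Vale.Agent.P130.Full.Core.Sequence
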