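import Mathlib
import Vale.Agent.P130.Full.Core.Main
import Vale.Agent.P130.Full.Core.SequenceCells

/-!
Module Carrier: long slots on the comb give sequences with flat spectra on owned cells.
-/

noncomputable section

namespace Vale.Agent.P130.Full.Core

open Finset MeasureTheory
open Vale.Agent.P110.Full (ch ch_add conj_ch norm_ch)

namespace Sequence

theorem ch_int (k : ℤ) : ch (k : ℝ) = 1 := by
  rw [ch, Complex.exp_eq_one_iff]
  exact ⟨k, by push_cast; ring⟩

theorem continuous_line (P w τ : ℕ) : Continuous (line P w τ) :=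
  continuous_finsetSum _ fun _ _ => continuous_ch.comp (by fun_prop)

theorem periodic_line (P w τ : ℕ) : Function.Periodic (line P w τ) 1 := fun u => by
  refine Finset.sum_congr rfl fun t _ => ?_
  rw [show (t : ℝ) * (u + 1) - (w : ℝ) * (t : ℝ) ^ 2 / (2 * P * τ) =
    ((t : ℝ) * u - (w : ℝ) * (t : ℝ) ^ 2 / (2 * P * τ)) + ((t : ℤ) : ℝ) by push_cast; ring,
    ch_add, ch_int, mul_one]

theorem prob_neg {R : ℕ} (C : Colours R) (v : Fin R → ℤ) : C.prob (-v) = C.prob v := C.symm v

variable {R : ℕ} {C : Colours R} {η : ℝ}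

/-- The points of a slot before its shift. -/
def base (D : Comb C η) (τ : ℕ) (g : Fin D.G) (t : Fin τ) : Fin R → ℝ := fun l =>
  D.phase g ((t : ℕ) + τ * (g : ℕ) : ℕ) l -
    (D.u l : ℝ) * ((t : ℕ) : ℝ) ^ 2 / (2 * D.P * τ)

/-- The sequence of all slots, each shifted by `sh`. -/
def seq (D : Comb C η) (τ : ℕ) (sh : Fin D.G → Fin R → ℝ) (j : Fin (D.G * τ)) : Fin R → ℝ :=
  base D τ (finProdFinEquiv.symm j).1 (finProdFinEquiv.symm j).2 +
    sh (finProdFinEquiv.symm j).1

theorem sum_seq (D : Comb C η) (τ : ℕ) (sh : Fin D.G → Fin R → ℝ) {M : Type} [AddCommMonoid M]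
    (F : (Fin R → ℝ) → ℕ → M) :
    ∑ j : Fin (D.G * τ), F (seq D τ sh j) j =
      ∑ g, ∑ t : Fin τ, F (base D τ g t + sh g) ((t : ℕ) + τ * (g : ℕ)) := by
  rw [← Equiv.sum_comp finProdFinEquiv, Fintype.sum_prod_type]
  refine Finset.sum_congr rfl fun g _ => Finset.sum_congr rfl fun t _ => ?_
  simp only [seq, Equiv.symm_apply_apply, finProdFinEquiv_apply_val]

theorem spectral_pos (D : Comb C η) {v : Fin R → ℤ} (hv : 0 < C.prob v) {w : ℕ} (hw : 0 < w)
    (hwv : (w : ℤ) = ∑ l, v l * D.u l) {τ : ℕ} (sh : Fin D.G → Fin R → ℝ) {η₂ s : ℝ}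
    (hs : 0 < s) (hη : η < 1)
    (hline : ∫ u in (0 : ℝ)..1, |‖line D.P w τ u‖ ^ 2 / τ -
      (Set.Ico (0 : ℝ) ((w : ℝ) / D.P)).indicator (fun _ => (D.P : ℝ) / w) u| ≤ η₂) :
    spectralError (fun j => ch (dot v (seq D τ sh j)))
        ((cellSet (D.own v : Set (ZMod D.P))).indicator fun _ => 1 / C.prob v) ≤
      η₂ + (D.G * D.lines v : ℕ) * (s * (1 + η₂) + η₂ / s) + 3 * η := by
  classical
  have hP : (0 : ℝ) < D.P := Nat.cast_pos.2 D.P_pos
  have hwR : (0 : ℝ) < w := Nat.cast_pos.2 hw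
  have hwpos : 0 < ∑ l, v l * D.u l := by rw [← hwv]; exact_mod_cast hw
  have hwP : 2 * w ≤ D.P := by
    have h := D.u_small v hv
    rw [← hwv, Nat.abs_cast] at h
    exact_mod_cast h
  set n := D.lines v with hn
  have hmass := D.mass v hv hwpos
  rw [← hwv, Int.cast_natCast, ← hn] at hmass
  have hN : 0 < D.G * n := by
    refine Nat.mul_pos D.G_pos (Nat.pos_of_ne_zero fun h => ?_)
    rw [h] at hmass
    simp [abs_of_pos hv] at hmass
    nlinarith
  have hnR : (0 : ℝ) < n := Nat.cast_pos.2 (Nat.pos_of_mul_pos_left hN)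
  have hNR : (0 : ℝ) < (D.G * n : ℕ) := Nat.cast_pos.2 hN
  -- the sum is a combination of lines
  set a : Fin D.G × Fin n → ℤ := fun x => D.start v x.1 x.2 with ha
  set z : Fin D.G × Fin n → ℝ → ℂ := fun x u =>
    ch (D.β v x.1 x.2 + dot v (sh x.1) + (u - (a x : ℝ) / D.P) * ((τ * (x.1 : ℕ) : ℕ) : ℝ)) with hz
  set L : Fin D.G × Fin n → ℝ → ℂ := fun x u => line D.P w τ (u - (a x : ℝ) / D.P) with hL
  set T : Fin D.G × Fin n → ℝ → ℝ := fun x =>
    (cellSet (arc D.P (a x) w)).indicator fun _ => (D.P : ℝ) / w with hT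
  have hDTFT : ∀ u : ℝ, ∑ j : Fin (D.G * τ), ch (dot v (seq D τ sh j)) * ch ((j : ℕ) * u) =
      (Real.sqrt n : ℂ)⁻¹ * ∑ x, z x u * L x u := by
    intro u
    rw [sum_seq D τ sh (fun y k => ch (dot v y) * ch ((k : ℝ) * u)), Fintype.sum_prod_type,
      Finset.mul_sum]
    refine Finset.sum_congr rfl fun g _ => ?_
    have hlf : ∀ x : ℝ, line D.P w τ x = ∑ t : Fin τ,
        ch (((t : ℕ) : ℝ) * x - (w : ℝ) * ((t : ℕ) : ℝ) ^ 2 / (2 * D.P * τ)) := fun x =>
      (Fin.sum_univ_eq_sum_range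
        (fun t : ℕ => ch ((t : ℝ) * x - (w : ℝ) * (t : ℝ) ^ 2 / (2 * D.P * τ))) τ).symm
    simp only [hz, hL, hlf, Finset.mul_sum]
    rw [Finset.sum_comm (s := (univ : Finset (Fin n))) (t := (univ : Finset (Fin τ)))]
    refine Finset.sum_congr rfl fun t _ => ?_
    have hdot : dot v (base D τ g t + sh g) = dot v (D.phase g (((t : ℕ) + τ * (g : ℕ) : ℕ) : ℤ)) +
        (dot v (sh g) - (w : ℝ) * ((t : ℕ) : ℝ) ^ 2 / (2 * D.P * τ)) := by
      have hw' : (w : ℝ) = ∑ l, (v l : ℝ) * (D.u l : ℝ) := by exact_mod_cast hwv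
      rw [hw']
      simp only [dot, base, Pi.add_apply, Finset.sum_mul, Finset.sum_div,
        ← Finset.sum_sub_distrib, ← Finset.sum_add_distrib]
      exact Finset.sum_congr rfl fun l _ => by ring
    rw [hdot, ch_add, D.expand v hv hwpos, mul_assoc, mul_assoc, Finset.sum_mul, Finset.mul_sum]
    refine Finset.sum_congr rfl fun i _ => ?_
    rw [← ch_add, ← ch_add]
    congr 1
    rw [← ch_add]
    congr 1
    simp only [ha]
    push_cast
    ring
  have hdis : ∀ u x x', x ≠ x' → T x u = 0 ∨ T x' u = 0 := by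
    intro u x x' hne
    by_cases h1 : u ∈ cellSet (arc D.P (a x) w)
    · refine Or.inr (Set.indicator_of_notMem (fun h2 => hne ?_) _)
      obtain ⟨t, ht, e1⟩ := h1
      obtain ⟨t', ht', e2⟩ := h2
      obtain ⟨hg, hi, -⟩ := D.cells v hv hwpos x.1 x.2 x'.1 x'.2 t t'
        (by rw [← hwv]; exact_mod_cast ht) (by rw [← hwv]; exact_mod_cast ht') (e1.trans e2.symm)
      exact Prod.ext hg (Fin.ext hi)
    · exact Or.inl (Set.indicator_of_notMem h1 _)
  have herr : ∀ x, ∫ u in (0 : ℝ)..1, |‖L x u‖ ^ 2 / τ - T x u| ≤ η₂ := by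
    intro x
    refine le_of_eq_of_le ?_ hline
    set g : ℝ → ℝ := fun u => |‖line D.P w τ u‖ ^ 2 / τ -
      (cellSet (arc D.P 0 w)).indicator (fun _ => (D.P : ℝ) / w) u| with hg
    have hgp : Function.Periodic g 1 := fun u => by
      simp only [hg, periodic_line D.P w τ u, periodic_cellSet _ _ u]
    have hgx : ∀ u, |‖L x u‖ ^ 2 / τ - T x u| = g (u - (a x : ℝ) / D.P) := fun u => by
      simp only [hg, hL, hT]
      congr 2
      rw [Set.indicator_apply, Set.indicator_apply,
        if_congr (mem_arc_shift D.P_pos (a x) w u) rfl rfl]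
    simp only [hgx]
    rw [shift_integral hgp]
    refine integral_congr_Ioo fun u hu => ?_
    simp only [hg]
    congr 2
    rw [Set.indicator_apply, Set.indicator_apply]
    exact if_congr ((mem_arc_zero D.P_pos (by omega) hu.1.le hu.2).trans
      ⟨fun h => ⟨hu.1.le, h⟩, fun h => h.2⟩) rfl rfl
  have hTint : ∀ x, IntervalIntegrable (T x) volume 0 1 := fun x => integrable_cellSet _ _ 0 1
  have hTmass : ∀ x, ∫ u in (0 : ℝ)..1, T x u = 1 := fun x => by
    simp only [hT]
    rw [integral_arc D.P_pos (by omega)]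
    field_simp
  have hz1 : ∀ x u, ‖z x u‖ = 1 := fun x u => norm_ch _
  have hzc : ∀ x, Continuous (z x) := fun x => continuous_ch.comp (by fun_prop)
  have hLc : ∀ x, Continuous (L x) := fun x => (continuous_line _ _ _).comp (by fun_prop)
  have hmain := lines_error (τ := τ) z L T hs hz1 hzc hLc hTint hdis herr fun x => (hTmass x).le
  rw [Fintype.card_prod, Fintype.card_fin, Fintype.card_fin] at hmain
  -- comparison of the union of the arcs with the owned cells
  set p := C.prob v with hp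
  set N : ℝ := ((D.G * n : ℕ) : ℝ) with hN'
  set S : ℝ → ℝ := fun u => ∑ x, T x u with hS
  set E : ℝ → ℝ := (cellSet (D.own v : Set (ZMod D.P))).indicator fun _ => (1 : ℝ) with hE
  set Q : ℝ := N * w / D.P with hQ
  have hQ0 : 0 < Q := by positivity
  have hQp : |Q - p| ≤ η * p := by
    refine le_of_eq_of_le ?_ hmass
    rw [hQ, hN']
    push_cast
    congr 1
    ring
  have hSint : IntervalIntegrable S volume 0 1 := by
    rw [hS, show (fun u => ∑ x, T x u) = ∑ x, T x from funext fun u => (Finset.sum_apply _ _ _).symm]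
    exact IntervalIntegrable.sum _ fun x _ => hTint x
  have hEint : IntervalIntegrable E volume 0 1 := integrable_cellSet _ _ 0 1
  have hSE : ∀ u, 0 ≤ S u ∧ S u * ((w : ℝ) / D.P) ≤ E u := by
    intro u
    refine ⟨Finset.sum_nonneg fun x _ => Set.indicator_nonneg (fun _ _ => by positivity) _, ?_⟩
    by_cases hu : ∃ x, u ∈ cellSet (arc D.P (a x) w)
    · obtain ⟨x, hx⟩ := hu
      have hEu : E u = 1 := by
        refine Set.indicator_of_mem (f := fun _ => (1 : ℝ)) ?_
        obtain ⟨t, ht, e1⟩ := hx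
        show _ ∈ (D.own v : Set (ZMod D.P))
        rw [← e1]
        exact D.cells_mem v hv hwpos x.1 x.2 t (by rw [← hwv]; exact_mod_cast ht)
      have hxT : T x u = (D.P : ℝ) / w := Set.indicator_of_mem hx _
      have hSu : S u = T x u := Finset.sum_eq_single_of_mem x (Finset.mem_univ _) fun x' _ hne =>
        (hdis u x' x hne).resolve_right (by rw [hxT]; positivity)
      rw [hEu, hSu, hxT]
      exact le_of_eq (by field_simp)
    · push Not at hu
      have hSu : S u = 0 :=
        Finset.sum_eq_zero fun x _ => Set.indicator_of_notMem (hu x) _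
      rw [hSu, zero_mul]
      exact Set.indicator_nonneg (fun _ _ => zero_le_one) _
  have hpt : ∀ u, |S u / N - E u / p| ≤
      S u * ((w : ℝ) / D.P) * |1 / Q - 1 / p| + (E u - S u * ((w : ℝ) / D.P)) / p := by
    intro u
    obtain ⟨h0, h1⟩ := hSE u
    have h : S u / N - E u / p =
        S u * ((w : ℝ) / D.P) * (1 / Q - 1 / p) + -((E u - S u * ((w : ℝ) / D.P)) / p) := by
      rw [hQ]
      field_simp
      ring
    rw [h]
    refine (abs_add_le _ _).trans (le_of_eq ?_)
    rw [abs_mul, abs_neg, abs_of_nonneg (mul_nonneg h0 (by positivity)),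
      abs_of_nonneg (div_nonneg (sub_nonneg.2 h1) hv.le)]
  have hSI : ∫ u in (0 : ℝ)..1, S u * ((w : ℝ) / D.P) = Q := by
    rw [intervalIntegral.integral_mul_const, hS,
      intervalIntegral.integral_finsetSum fun x _ => hTint x]
    simp only [hTmass, Finset.sum_const, nsmul_eq_mul, Finset.card_univ, Fintype.card_prod,
      Fintype.card_fin, mul_one, hQ, hN']
    ring
  have hEI : ∫ u in (0 : ℝ)..1, E u = ((D.own v).card : ℝ) / D.P := by
    rw [hE, integral_finset D.P_pos, one_mul]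
  have hsecond : ∫ u in (0 : ℝ)..1, |S u / N - E u / p| ≤ 3 * η := by
    refine (intervalIntegral.integral_mono_on zero_le_one
      ((hSint.div_const N).sub (hEint.div_const p)).abs
      (((hSint.mul_const _).mul_const _).add ((hEint.sub (hSint.mul_const _)).div_const p))
      fun u _ => hpt u).trans ?_
    rw [intervalIntegral.integral_add ((hSint.mul_const _).mul_const _)
        ((hEint.sub (hSint.mul_const _)).div_const p),
      intervalIntegral.integral_mul_const, intervalIntegral.integral_div,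
      intervalIntegral.integral_sub hEint (hSint.mul_const _), hSI, hEI]
    have h1 : Q * |1 / Q - 1 / p| ≤ η := by
      rw [show 1 / Q - 1 / p = (p - Q) / (Q * p) by field_simp, abs_div,
        abs_of_pos (mul_pos hQ0 hv), abs_sub_comm, ← mul_div_assoc, mul_div_mul_left _ _ hQ0.ne',
        div_le_iff₀ hv]
      exact hQp
    have h2 : (((D.own v).card : ℝ) / D.P - Q) / p ≤ 2 * η := by
      rw [div_le_iff₀ hv]
      nlinarith [abs_le.1 (D.own_card v hv), abs_le.1 hQp]
    linarith
  -- conclusion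
  rw [spectralError]
  simp only [hDTFT]
  have hconv : ∀ u, ‖(Real.sqrt n : ℂ)⁻¹ * ∑ x, z x u * L x u‖ ^ 2 / ((D.G * τ : ℕ) : ℝ) =
      (‖∑ x, z x u * L x u‖ ^ 2 / τ) / N := fun u => by
    rw [norm_mul, norm_inv, Complex.norm_real, Real.norm_eq_abs, mul_pow, inv_pow, sq_abs,
      Real.sq_sqrt hnR.le, hN']
    push_cast
    field_simp
  have hEp : ∀ u, (cellSet (D.own v : Set (ZMod D.P))).indicator (fun _ => 1 / p) u = E u / p :=
    fun u => by
      by_cases hu : u ∈ cellSet (D.own v : Set (ZMod D.P)) <;> simp [hE, hu]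
  simp only [hconv, hEp]
  have hWint : IntervalIntegrable (fun u => ‖∑ x, z x u * L x u‖ ^ 2 / τ) volume 0 1 :=
    ((((continuous_finsetSum _ fun x _ => (hzc x).mul (hLc x)).norm.pow 2)).div_const
      _).intervalIntegrable 0 1
  refine (intervalIntegral.integral_mono_on zero_le_one
    ((hWint.div_const N).sub (hEint.div_const p)).abs
    (((hWint.sub hSint).abs.div_const N).add ((hSint.div_const N).sub (hEint.div_const p)).abs)
    fun u _ => ?_).trans ?_
  · refine le_trans (abs_sub_le _ (S u / N) _) (le_of_eq ?_)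
    rw [← sub_div, abs_div, abs_of_pos hNR]
  · rw [intervalIntegral.integral_add ((hWint.sub hSint).abs.div_const N)
      ((hSint.div_const N).sub (hEint.div_const p)).abs, intervalIntegral.integral_div]
    refine add_le_add ?_ hsecond
    refine (div_le_div_of_nonneg_right hmain hNR.le).trans (le_of_eq ?_)
    rw [hN']
    field_simp

theorem spectral_neg (D : Comb C η) (v : Fin R → ℤ) {τ : ℕ} (sh : Fin D.G → Fin R → ℝ) :
    spectralError (fun j => ch (dot v (seq D τ sh j)))
        ((cellSet (D.own v : Set (ZMod D.P))).indicator fun _ => 1 / C.prob v) =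
      spectralError (fun j => ch (dot (-v) (seq D τ sh j)))
        ((cellSet (D.own (-v) : Set (ZMod D.P))).indicator fun _ => 1 / C.prob (-v)) := by
  rw [prob_neg, spectralError, spectralError]
  set g : ℝ → ℝ := fun u => |‖∑ j, ch (dot (-v) (seq D τ sh j)) * ch ((j : ℕ) * u)‖ ^ 2 /
    ((D.G * τ : ℕ) : ℝ) -
      (cellSet (D.own (-v) : Set (ZMod D.P))).indicator (fun _ => 1 / C.prob v) u| with hg
  have hgp : Function.Periodic g 1 := fun u => by
    have hper : ∀ k : ℕ, ch ((k : ℝ) * (u + 1)) = ch ((k : ℝ) * u) := fun k => by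
      rw [mul_add, mul_one, show ((k : ℕ) : ℝ) = ((k : ℤ) : ℝ) by norm_num, ch_add, ch_int,
        mul_one]
    simp only [hg, periodic_cellSet _ _ u, hper]
  show _ = ∫ u in (0 : ℝ)..1, g u
  rw [← neg_integral hgp]
  refine intervalIntegral.integral_congr_ae ?_
  filter_upwards [compl_mem_ae_iff.2
    ((Set.countable_range fun k : ℤ => (k : ℝ) / D.P).measure_zero volume)] with u hu _
  simp only [hg]
  congr 2
  · congr 1
    rw [← Complex.norm_conj, map_sum]
    congr 3
    funext j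
    rw [map_mul, conj_ch, conj_ch]
    congr 2 <;> simp [dot]
  · have hnint : (⌊(D.P : ℝ) * u⌋ : ℝ) ≠ (D.P : ℝ) * u := fun h => hu ⟨⌊(D.P : ℝ) * u⌋, by
      show _ / _ = u
      rw [h, mul_div_cancel_left₀ _ (Nat.cast_ne_zero.2 D.P_pos.ne')]⟩
    have hfl : ⌊(D.P : ℝ) * -u⌋ = -1 - ⌊(D.P : ℝ) * u⌋ := by
      rw [Int.floor_eq_iff]
      have h1 := lt_of_le_of_ne (Int.floor_le ((D.P : ℝ) * u)) hnint
      have h2 := Int.lt_floor_add_one ((D.P : ℝ) * u)
      push_cast
      constructor <;> linarith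
    have hmem : u ∈ cellSet (D.own v : Set (ZMod D.P)) ↔
        -u ∈ cellSet (D.own (-v) : Set (ZMod D.P)) := by
      have h := D.own_neg (-v) ((⌊(D.P : ℝ) * u⌋ : ℤ) : ZMod D.P)
      rw [neg_neg] at h
      simp only [cellSet, Set.mem_ofPred_eq, Finset.mem_coe, hfl, h]
      push_cast
      rfl
    classical
    rw [Set.indicator_apply, Set.indicator_apply, if_congr hmem rfl rfl]

end Sequence

open Sequence in
theorem carrier (hK : CombStatement) (hL : LineStatement) : CarrierStatement := by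
  intro R hR C K hK0 ξ η hη m₀
  classical
  set η₁ := min (η / 12) (1 / 2) with hη₁
  have hη₁0 : 0 < η₁ := lt_min (by positivity) (by norm_num)
  obtain ⟨D⟩ := hK R hR C η₁ hη₁0
  have hP : (0 : ℝ) < D.P := Nat.cast_pos.2 D.P_pos
  set M : ℝ := 2 * D.P with hM
  set s := η / (16 * M) with hs
  set η₂ := min (min 1 (η / 4)) (s * η / (8 * M)) with hη₂
  have hs0 : 0 < s := by positivity
  have hη₂0 : 0 < η₂ := lt_min (lt_min one_pos (by positivity)) (by positivity)
  have hex : ∀ w : ℕ, ∃ τ₀ : ℕ, ∀ τ ≥ τ₀, 0 < w → 2 * w ≤ D.P →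
      ∫ u in (0 : ℝ)..1, |‖line D.P w τ u‖ ^ 2 / τ -
        (Set.Ico (0 : ℝ) ((w : ℝ) / D.P)).indicator (fun _ => (D.P : ℝ) / w) u| ≤ η₂ := by
    intro w
    by_cases h : 0 < w ∧ 2 * w ≤ D.P
    · obtain ⟨τ₀, h'⟩ := hL D.P w h.1 h.2 η₂ hη₂0
      exact ⟨τ₀, fun τ hτ _ _ => h' τ hτ⟩
    · exact ⟨0, fun τ _ h1 h2 => absurd ⟨h1, h2⟩ h⟩
  choose τ₀ hτ₀ using hex
  set τ := max (max m₀ 1) ((range (D.P + 1)).sup τ₀) with hτ
  refine ⟨D.G * τ, ?_, fun v => cellSet (D.own v : Set (ZMod D.P)),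
    fun v => measurableSet_cellSet _, fun v v' hne h => ?_, fun f B hf => ?_⟩
  · calc m₀ ≤ τ := le_trans (le_max_left _ _) (le_max_left _ _)
      _ ≤ D.G * τ := Nat.le_mul_of_pos_left _ D.G_pos
  · rw [Set.disjoint_left]
    exact fun u hu hu' => Finset.disjoint_left.1 (D.own_disjoint v v' hne h) hu hu'
  have hshift : ∀ g : Fin D.G, ∃ i : Fin K, ∑ t : Fin τ, f (base D τ g t + ξ i) ≤ B * τ := by
    intro g
    have : (univ : Finset (Fin K)).Nonempty := ⟨⟨0, hK0⟩, mem_univ _⟩
    obtain ⟨i, -, hi⟩ := Finset.exists_le_of_sum_le this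
      (f := fun i => ∑ t : Fin τ, f (base D τ g t + ξ i)) (g := fun _ => B * τ) (by
        rw [Finset.sum_comm, Finset.sum_const, Finset.card_univ, Fintype.card_fin, nsmul_eq_mul]
        refine (Finset.sum_le_card_nsmul _ _ _ fun t _ => hf (base D τ g t)).trans (le_of_eq ?_)
        rw [Finset.card_univ, Fintype.card_fin, nsmul_eq_mul]
        ring)
    exact ⟨i, hi⟩
  choose sel hsel using hshift
  refine ⟨seq D τ fun g => ξ (sel g), ?_, fun v hv => ?_⟩
  · rw [sum_seq D τ _ fun y _ => f y]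
    refine (Finset.sum_le_card_nsmul _ _ _ fun g _ => hsel g).trans (le_of_eq ?_)
    rw [Finset.card_univ, Fintype.card_fin, nsmul_eq_mul]
    push_cast
    ring
  have hpos : ∀ v, 0 < C.prob v → 0 < ∑ l, v l * D.u l →
      spectralError (fun j => ch (dot v (seq D τ (fun g => ξ (sel g)) j)))
        ((cellSet (D.own v : Set (ZMod D.P))).indicator fun _ => 1 / C.prob v) ≤ η := by
    intro v hv hw
    obtain ⟨w, hwv⟩ := Int.eq_ofNat_of_zero_le hw.le
    have hw0 : 0 < w := by omega
    have hwP : 2 * w ≤ D.P := by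
      have h := D.u_small v hv
      rw [hwv, Nat.abs_cast] at h
      exact_mod_cast h
    have hline := hτ₀ w τ (le_trans (Finset.le_sup (mem_range.2 (by omega))) (le_max_right _ _))
      hw0 hwP
    refine (spectral_pos D hv hw0 hwv.symm (fun g => ξ (sel g)) hs0
      (lt_of_le_of_lt (min_le_right _ _) (by norm_num)) hline).trans ?_
    have hN : ((D.G * D.lines v : ℕ) : ℝ) ≤ M := by
      have h := (abs_le.1 (D.mass v hv hw)).2
      rw [hwv, Int.cast_natCast] at h
      have hp1 : C.prob v ≤ 1 := by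
        have := C.fintype
        rw [Colours.prob, ← C.weight_sum]
        exact Finset.sum_le_sum fun c _ => by split_ifs <;> simp [C.weight_nonneg c]
      have hw1 : (1 : ℝ) ≤ w := by exact_mod_cast hw0
      have h' : (D.G : ℝ) * w * D.lines v ≤ M := by
        rw [hM, ← div_le_iff₀ hP]
        nlinarith [min_le_right (η / 12) (1 / 2 : ℝ)]
      push_cast
      nlinarith [mul_nonneg (mul_nonneg (Nat.cast_nonneg (α := ℝ) D.G)
        (Nat.cast_nonneg (α := ℝ) (D.lines v))) (sub_nonneg.2 hw1)]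
    have h1 : η₂ ≤ η / 4 := le_trans (min_le_left _ _) (min_le_right _ _)
    have h2 : η₂ ≤ 1 := le_trans (min_le_left _ _) (min_le_left _ _)
    have h3 : η₂ / s ≤ η / (8 * M) := by
      rw [div_le_iff₀ hs0]
      exact (min_le_right _ _).trans (le_of_eq (by ring))
    have h4 : s * (1 + η₂) + η₂ / s ≤ η / (4 * M) := by
      have h5 : s * (1 + η₂) ≤ η / (8 * M) := by
        refine (mul_le_mul_of_nonneg_left (by linarith : 1 + η₂ ≤ 2) hs0.le).trans (le_of_eq ?_)
        rw [hs]
        field_simp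
        norm_num
      refine (add_le_add h5 h3).trans (le_of_eq ?_)
      field_simp
      norm_num
    have h6 : ((D.G * D.lines v : ℕ) : ℝ) * (s * (1 + η₂) + η₂ / s) ≤ η / 4 := by
      refine (mul_le_mul hN h4 (by positivity) (by positivity)).trans (le_of_eq ?_)
      have hM0 : M ≠ 0 := by rw [hM]; positivity
      field_simp
    linarith [min_le_left (η / 12) (1 / 2 : ℝ)]
  rcases lt_or_gt_of_ne (D.u_ne v hv) with hneg | hgt
  · rw [spectral_neg]
    refine hpos (-v) (by rw [prob_neg]; exact hv) ?_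
    simpa [Finset.sum_neg_distrib] using hneg
  · exact hpos v hv hgt

end Vale.Agent.P130.Full.Core
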