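import Mathlib
import Vale.Agent.P110.Full.Square
import Vale.Agent.P130.Full.Core.Statements

/-!
Module Torus: the product of one-variable profiles, reduced to its primitive frequencies.
-/

noncomputable section

namespace Vale.Agent.P130.Full.Core

open Finset
open Vale.Agent.P110.Full (ch ch_add conj_ch norm_ch)
open Vale.Agent.P110.Full.SquareWave (ch_sum ch_zero gN dvd_gN gN_neg gN_cert)
open scoped ComplexConjugate

namespace TorusAux

lemma sum_sq_orth {ι κ : Type} [Fintype κ] (s : Finset ι) (a : ι → ℂ) (e : ι → κ → ℝ)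
    (h : ∀ v ∈ s, ∀ v' ∈ s, v ≠ v' → ∑ i, ch (e v i - e v' i) = 0) :
    ∑ i, ‖∑ v ∈ s, a v * ch (e v i)‖ ^ 2 = (Fintype.card κ : ℝ) * ∑ v ∈ s, ‖a v‖ ^ 2 := by
  apply Complex.ofReal_injective
  push_cast
  simp only [← Complex.mul_conj', map_sum, map_mul, conj_ch, Finset.sum_mul_sum]
  rw [Finset.sum_comm, Finset.mul_sum]
  refine Finset.sum_congr rfl fun v hv => ?_
  rw [Finset.sum_comm, Finset.sum_eq_single_of_mem v hv]
  · rw [Finset.sum_congr rfl (g := fun _ => a v * conj (a v)) fun i _ => ?_]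
    · rw [Finset.sum_const, Finset.card_univ, nsmul_eq_mul]
    · calc a v * ch (e v i) * (conj (a v) * ch (-e v i))
          = a v * conj (a v) * ch (e v i + -e v i) := by rw [ch_add]; ring
        _ = _ := by rw [add_neg_cancel, ch_zero, mul_one]
  · intro v' hv' hne
    calc ∑ i, a v * ch (e v i) * (conj (a v') * ch (-e v' i))
        = a v * conj (a v') * ∑ i, ch (e v i - e v' i) := by
          rw [Finset.mul_sum]
          refine Finset.sum_congr rfl fun i _ => ?_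
          rw [sub_eq_add_neg, ch_add]
          ring
      _ = 0 := by rw [h v hv v' hv' hne.symm, mul_zero]

lemma norm_add_sq_le' (a b : ℂ) : ‖a + b‖ ^ 2 ≤ 2 * ‖a‖ ^ 2 + 2 * ‖b‖ ^ 2 := by
  have h := norm_add_le a b
  nlinarith [norm_nonneg (a + b), norm_nonneg a, norm_nonneg b, sq_nonneg (‖a‖ - ‖b‖)]

lemma sum_prod_sub_le {K : ℕ} {η : ℝ} :
    ∀ (R : ℕ) (f M : Fin R → Fin K → ℂ), (∀ l i, ‖f l i‖ = 1) →
      (∀ l, ∑ i, ‖M l i‖ ^ 2 ≤ K) → (∀ l, ∑ i, ‖f l i - M l i‖ ^ 2 ≤ η * K) →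
      ∑ i : Fin R → Fin K, ‖∏ l, f l (i l) - ∏ l, M l (i l)‖ ^ 2 ≤
        (2 ^ (R + 1) - 2) * η * (K : ℝ) ^ R := by
  intro R
  induction R with
  | zero => intro f M _ _ _; simp
  | succ R ih =>
    intro f M hf hM hfM
    set F : (Fin R → Fin K) → ℂ := fun j => ∏ l : Fin R, f l.succ (j l) with hF
    set G : (Fin R → Fin K) → ℂ := fun j => ∏ l : Fin R, M l.succ (j l) with hG
    have hFn : ∀ j, ‖F j‖ = 1 := fun j => by simp [hF, norm_prod, hf]
    have hE : ∑ j, ‖F j - G j‖ ^ 2 ≤ (2 ^ (R + 1) - 2) * η * (K : ℝ) ^ R :=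
      ih (fun l => f l.succ) (fun l => M l.succ) (fun l i => hf _ i) (fun l => hM _)
        (fun l => hfM _)
    have hpt : ∀ a j, ‖f 0 a * F j - M 0 a * G j‖ ^ 2 ≤
        2 * ‖f 0 a - M 0 a‖ ^ 2 + 2 * (‖M 0 a‖ ^ 2 * ‖F j - G j‖ ^ 2) := fun a j => by
      rw [show f 0 a * F j - M 0 a * G j = (f 0 a - M 0 a) * F j + M 0 a * (F j - G j) by ring]
      refine (norm_add_sq_le' _ _).trans (le_of_eq ?_)
      rw [norm_mul, norm_mul, hFn, mul_one, mul_pow]
    calc ∑ i : Fin (R + 1) → Fin K, ‖∏ l, f l (i l) - ∏ l, M l (i l)‖ ^ 2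
        = ∑ a, ∑ j, ‖f 0 a * F j - M 0 a * G j‖ ^ 2 := by
          rw [← (Fin.consEquiv fun _ => Fin K).sum_comp, Fintype.sum_prod_type]
          simp [Fin.prod_univ_succ, hF, hG]
      _ ≤ ∑ a, ∑ j, (2 * ‖f 0 a - M 0 a‖ ^ 2 + 2 * (‖M 0 a‖ ^ 2 * ‖F j - G j‖ ^ 2)) :=
          Finset.sum_le_sum fun a _ => Finset.sum_le_sum fun j _ => hpt a j
      _ = 2 * (K : ℝ) ^ R * ∑ a, ‖f 0 a - M 0 a‖ ^ 2 +
          2 * ((∑ a, ‖M 0 a‖ ^ 2) * ∑ j, ‖F j - G j‖ ^ 2) := by
          simp only [Finset.sum_add_distrib]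
          congr 1
          · simp only [Finset.sum_const, Finset.card_univ, Fintype.card_fun, Fintype.card_fin,
              nsmul_eq_mul, Finset.mul_sum]
            push_cast
            exact Finset.sum_congr rfl fun _ _ => by ring
          · rw [Finset.sum_mul_sum, Finset.mul_sum]
            exact Finset.sum_congr rfl fun _ _ => (Finset.mul_sum _ _ _).symm
      _ ≤ 2 * (K : ℝ) ^ R * (η * K) + 2 * (K * ((2 ^ (R + 1) - 2) * η * (K : ℝ) ^ R)) := by
          gcongr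
          · exact hfM 0
          · exact hM 0
      _ = _ := by ring

end TorusAux

open TorusAux

theorem torus (hP : ProfileStatement) (hK : ColouringStatement) : TorusStatement := by
  classical
  intro ε hε
  obtain ⟨R0, hR0⟩ := exists_pow_lt_of_lt_one (by positivity : (0 : ℝ) < ε / 64)
    (by norm_num : (3 / 4 : ℝ) < 1)
  obtain ⟨R, hR⟩ : ∃ R, R = R0 + 2 := ⟨_, rfl⟩
  have hRne : (Finset.univ : Finset (Fin R)).Nonempty := ⟨⟨0, by omega⟩, Finset.mem_univ _⟩
  have hrem : 8 * (3 / 4 : ℝ) ^ R ≤ ε / 8 := by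
    have : (3 / 4 : ℝ) ^ R ≤ (3 / 4 : ℝ) ^ R0 :=
      pow_le_pow_of_le_one (by norm_num) (by norm_num) (by omega)
    linarith
  set η := min 1 (ε / (8 * ((2 : ℝ) ^ (R + 1) + R + 1))) with hηdef
  have hη : 0 < η := lt_min one_pos (by positivity)
  have hη1 : η ≤ 1 := min_le_left _ _
  have hηε : η * (2 ^ (R + 1) + R + 1) ≤ ε / 8 := by
    refine (mul_le_mul_of_nonneg_right (min_le_right _ _) (by positivity)).trans (le_of_eq ?_)
    field_simp
  obtain ⟨A1, K1, S1, ξ1, V, p, lo, hi, hK1, hS1, hV, horth, hload, hψ⟩ :=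
    hP R (by omega) η hη ε hε
  set q : (Fin R → ℤ) → ℝ := fun v => ∏ l, p (v l) with hq
  set LO : (Fin R → ℤ) → ℝ := fun v => Finset.univ.sup' hRne fun l => lo (v l) with hLO
  set HI : (Fin R → ℤ) → ℝ := fun v => Finset.univ.inf' hRne fun l => hi (v l) with hHI
  set Vt := (Fintype.piFinset fun _ : Fin R => V).filter (fun v => gN v = 1 ∧ LO v ≤ HI v)
    with hVt
  have hact : ∀ ψ (v : Fin R → ℤ), v ∈ Fintype.piFinset (fun _ : Fin R => active V lo hi ψ) ↔
      v ∈ Fintype.piFinset (fun _ : Fin R => V) ∧ LO v ≤ ψ ∧ ψ ≤ HI v := fun ψ v => by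
    simp [active, Fintype.mem_piFinset, hLO, hHI, forall_and]
  have hqpos : ∀ v ∈ Fintype.piFinset (fun _ : Fin R => V), 0 < q v := fun v hv =>
    Finset.prod_pos fun l _ => (hV _ (Fintype.mem_piFinset.1 hv l)).2.2.1
  have hload' : ∀ ψ : ℝ,
      ∑ v : ↥Vt, (if LO v ≤ ψ ∧ ψ ≤ HI v then q v else 0) ≤ 1 := fun ψ => by
    rw [Finset.sum_coe_sort Vt (fun v => if LO v ≤ ψ ∧ ψ ≤ HI v then q v else 0),
      ← Finset.sum_filter]
    calc ∑ v ∈ Vt.filter (fun v => LO v ≤ ψ ∧ ψ ≤ HI v), q v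
        ≤ ∑ v ∈ Fintype.piFinset (fun _ : Fin R => active V lo hi ψ), q v := by
          refine Finset.sum_le_sum_of_subset_of_nonneg (fun v hv => ?_) fun v hv _ => ?_
          · simp only [hVt, Finset.mem_filter] at hv
            exact (hact ψ v).2 ⟨hv.1.1, hv.2⟩
          · exact (hqpos v ((hact ψ v).1 hv).1).le
      _ = (∑ v ∈ active V lo hi ψ, p v) ^ R :=
          (Finset.sum_pow' (active V lo hi ψ) p R).symm
      _ ≤ 1 := by
          refine pow_le_one₀ (Finset.sum_nonneg fun v hv => ?_) (hload ψ)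
          exact (hV v (Finset.mem_filter.1 hv).1).2.2.1.le
  obtain ⟨Col, iCol, wt, mem, hwt, hsum, hmarg, hdis⟩ := hK ↥Vt (fun v => q v) (fun v => LO v)
    (fun v => HI v) (fun v => (hqpos _ (Finset.mem_filter.1 v.2).1).le) hload'
    (fun v => (Finset.mem_filter.1 v.2).2.2)
  set mem' : Col → Finset (Fin R → ℤ) := fun c => (mem c).map (Function.Embedding.subtype _)
    with hmem'
  have hmem : ∀ c v, v ∈ mem' c ↔ ∃ h : v ∈ Vt, (⟨v, h⟩ : ↥Vt) ∈ mem c := fun c v => by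
    simp [hmem']
  have hprob : ∀ v, (∑ c, if v ∈ mem' c then wt c else 0) = if v ∈ Vt then q v else 0 := by
    intro v
    by_cases h : v ∈ Vt
    · rw [if_pos h, ← hmarg ⟨v, h⟩]
      exact Finset.sum_congr rfl fun c _ => if_congr (by simp [hmem, h]) rfl rfl
    · rw [if_neg h]
      exact Finset.sum_eq_zero fun c _ => if_neg (by simp [hmem, h])
  have hneg : ∀ v ∈ Fintype.piFinset (fun _ : Fin R => V),
      -v ∈ Fintype.piFinset (fun _ : Fin R => V) ∧ q (-v) = q v ∧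
        ∀ ψ, LO v ≤ ψ ∧ ψ ≤ HI v ↔ LO (-v) ≤ 1 - ψ ∧ 1 - ψ ≤ HI (-v) := by
    intro v hv
    have h := fun l => hV _ (Fintype.mem_piFinset.1 hv l)
    refine ⟨Fintype.mem_piFinset.2 fun l => (h l).2.1, Finset.prod_congr rfl fun l _ =>
      (h l).2.2.2.1, fun ψ => ?_⟩
    simp only [hLO, hHI, Finset.sup'_le_iff, Finset.le_inf'_iff, Finset.mem_univ, forall_const,
      Pi.neg_apply]
    constructor
    · rintro ⟨h1, h2⟩
      refine ⟨fun l => ?_, fun l => ?_⟩
      · linarith [h2 l, (h l).2.2.2.2.2.1]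
      · linarith [h1 l, (h l).2.2.2.2.2.2]
    · rintro ⟨h1, h2⟩
      refine ⟨fun l => ?_, fun l => ?_⟩
      · linarith [h2 l, (h l).2.2.2.2.2.2]
      · linarith [h1 l, (h l).2.2.2.2.2.1]
  have hnegVt : ∀ v ∈ Vt, -v ∈ Vt ∧ q (-v) = q v := by
    intro v hv
    obtain ⟨hvP, hg, hle⟩ := Finset.mem_filter.1 hv
    obtain ⟨hnP, hnq, hiff⟩ := hneg v hvP
    refine ⟨Finset.mem_filter.2 ⟨hnP, by rw [gN_neg, hg], ?_⟩, hnq⟩
    obtain ⟨h1, h2⟩ := (hiff (LO v)).1 ⟨le_rfl, hle⟩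
    exact h1.trans h2
  let C : Colours R :=
    { Col := Col
      fintype := iCol
      weight := wt
      weight_nonneg := hwt
      weight_sum := hsum
      mem := mem'
      primitive := fun c v hv => by
        obtain ⟨h, -⟩ := (hmem c v).1 hv
        exact gN_cert (Finset.mem_filter.1 h).2.1
      symm := fun v => by
        rw [hprob, hprob]
        by_cases h : v ∈ Vt
        · rw [if_pos h, if_pos (hnegVt v h).1, (hnegVt v h).2]
        · rw [if_neg h, if_neg fun h' => h (by simpa using (hnegVt _ h').1)] }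
  have hCprob : ∀ v, C.prob v = if v ∈ Vt then q v else 0 := hprob
  refine ⟨R, C, fun x => ∑ l, S1 (x l), R * A1, K1 ^ R,
    fun i l => ξ1 (finFunctionFinEquiv.symm i l), by omega, pow_pos hK1 R,
    fun x => (Finset.sum_le_sum fun l _ => hS1 (x l)).trans (by simp), fun ψ hψr => ?_⟩
  obtain ⟨hsum1, hdiv, γ, hγ, hγerr⟩ := hψ ψ hψr
  set act := active V lo hi ψ with hactdef
  set P := Fintype.piFinset (fun _ : Fin R => act) with hPdef
  set Act := P.filter (fun v => gN v = 1) with hAct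
  set Rem := P.filter (fun v => ¬ gN v = 1) with hRem
  set Γ : (Fin R → ℤ) → ℂ := fun v => ∏ l, γ (v l) with hΓdef
  have hΓ : ∀ v ∈ P, ‖Γ v‖ ^ 2 = q v := fun v hv => by
    rw [hΓdef, norm_prod, ← Finset.prod_pow]
    exact Finset.prod_congr rfl fun l _ => hγ _ (Fintype.mem_piFinset.1 hv l)
  have hActVt : ∀ v ∈ Act, v ∈ Vt ∧ LO v ≤ ψ ∧ ψ ≤ HI v := fun v hv => by
    obtain ⟨hvP, hg⟩ := Finset.mem_filter.1 hv
    obtain ⟨h1, h2⟩ := (hact ψ v).1 hvP
    exact ⟨Finset.mem_filter.2 ⟨h1, hg, h2.1.trans h2.2⟩, h2⟩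
  have hactV : ∀ a ∈ act, a ≠ 0 ∧ 0 ≤ p a := fun a ha =>
    ⟨(hV a (Finset.mem_filter.1 ha).1).1, (hV a (Finset.mem_filter.1 ha).1).2.2.1.le⟩
  have hqnn : ∀ v ∈ P, 0 ≤ q v := fun v hv =>
    Finset.prod_nonneg fun l _ => (hactV _ (Fintype.mem_piFinset.1 hv l)).2
  have hRsum : ∑ v ∈ Rem, q v ≤ 8 * (3 / 4 : ℝ) ^ R + η := by
    refine le_trans ?_ (hdiv (V.sup Int.natAbs))
    calc ∑ v ∈ Rem, q v
        = ∑ v ∈ P, if ¬ gN v = 1 then q v else 0 := Finset.sum_filter _ _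
      _ ≤ ∑ v ∈ P, ∑ d ∈ Finset.Icc 2 (V.sup Int.natAbs),
            ∏ l, (if (d : ℤ) ∣ v l then p (v l) else 0) := by
          refine Finset.sum_le_sum fun v hv => ?_
          have hnn : ∀ d : ℕ, 0 ≤ ∏ l, (if (d : ℤ) ∣ v l then p (v l) else 0) := fun d =>
            Finset.prod_nonneg fun l _ => by
              split_ifs
              · exact (hactV _ (Fintype.mem_piFinset.1 hv l)).2
              · exact le_rfl
          split_ifs with hg
          · exact Finset.sum_nonneg fun d _ => hnn d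
          have hdvd : ∀ l, (gN v : ℤ) ∣ v l := (dvd_gN v _).1 dvd_rfl
          set l0 : Fin R := ⟨0, by omega⟩
          have hl0 := Fintype.mem_piFinset.1 hv l0
          have hne : v l0 ≠ 0 := (hactV _ hl0).1
          have hd : gN v ∣ (v l0).natAbs := Int.natCast_dvd.1 (hdvd l0)
          have hg0 : gN v ≠ 0 := fun h0 => hne (by simpa [h0] using hd)
          have hgle : gN v ≤ V.sup Int.natAbs :=
            (Nat.le_of_dvd (Int.natAbs_pos.2 hne) hd).trans
              (Finset.le_sup (f := Int.natAbs) (Finset.mem_filter.1 hl0).1)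
          refine le_trans (le_of_eq ?_) (Finset.single_le_sum (fun d _ => hnn d)
            (Finset.mem_Icc.2 ⟨by omega, hgle⟩ : gN v ∈ Finset.Icc 2 (V.sup Int.natAbs)))
          exact Finset.prod_congr rfl fun l _ => (if_pos (hdvd l)).symm
      _ = _ := by
          rw [Finset.sum_comm]
          exact Finset.sum_congr rfl fun d _ =>
            (Finset.sum_pow' act (fun a => if (d : ℤ) ∣ a then p a else 0) R).symm
  have hPsum : ∑ v ∈ P, q v = (∑ v ∈ act, p v) ^ R := (Finset.sum_pow' act p R).symm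
  have hηR : (R : ℝ) * η + η + (2 ^ (R + 1) - 2) * η ≤ ε / 8 := by linarith [hηε, hη]
  refine ⟨Act, Γ, fun v hv => ?_, ?_, ?_, fun x => ?_⟩
  · obtain ⟨hvVt, -⟩ := hActVt v hv
    rw [hCprob, if_pos hvVt]
    exact ⟨hqpos v (Finset.mem_filter.1 hvVt).1, hΓ v (Finset.mem_filter.1 hv).1⟩
  · rintro ⟨c, b⟩ v hv v' hv' hh hh'
    by_contra hne
    obtain ⟨hvVt, hva⟩ := hActVt v hv
    obtain ⟨hv'Vt, hv'a⟩ := hActVt v' hv'
    cases b
    · obtain ⟨h, hc⟩ := (hmem c (-v)).1 (by simpa [Colours.Has] using hh)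
      obtain ⟨h', hc'⟩ := (hmem c (-v')).1 (by simpa [Colours.Has] using hh')
      exact hdis c _ hc _ hc' (fun e => hne (neg_injective (congrArg Subtype.val e))) (1 - ψ)
        ⟨((hneg v (Finset.mem_filter.1 hvVt).1).2.2 ψ).1 hva,
          ((hneg v' (Finset.mem_filter.1 hv'Vt).1).2.2 ψ).1 hv'a⟩
    · obtain ⟨h, hc⟩ := (hmem c v).1 (by simpa [Colours.Has] using hh)
      obtain ⟨h', hc'⟩ := (hmem c v').1 (by simpa [Colours.Has] using hh')
      exact hdis c _ hc _ hc' (fun e => hne (congrArg Subtype.val e)) ψ ⟨hva, hv'a⟩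
  · rw [Finset.sum_congr rfl fun v hv => (hCprob v).trans (if_pos (hActVt v hv).1)]
    have h1 : ∑ v ∈ Act, q v + ∑ v ∈ Rem, q v = (∑ v ∈ act, p v) ^ R := by
      rw [← hPsum]
      exact Finset.sum_filter_add_sum_filter_not P _ q
    have h2 : (1 - η) ^ R ≤ (∑ v ∈ act, p v) ^ R := pow_le_pow_left₀ (by linarith) hsum1 R
    have h3 : 1 - (R : ℝ) * η ≤ (1 - η) ^ R := by
      simpa [sub_eq_add_neg] using one_add_mul_le_pow (by linarith : (-2 : ℝ) ≤ -η) R
    have h4 : 0 ≤ ((2 : ℝ) ^ (R + 1) - 2) * η :=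
      mul_nonneg (by linarith [one_le_pow₀ (one_le_two : (1 : ℝ) ≤ 2) (n := R), pow_succ (2 : ℝ) R])
        hη.le
    linarith
  · set κ := Fin R → Fin K1
    set f : Fin R → Fin K1 → ℂ := fun l a => ch (ψ * S1 (x l + ξ1 a)) with hf
    set M : Fin R → Fin K1 → ℂ := fun l a => ∑ v ∈ act, γ v * ch (v * (x l + ξ1 a)) with hM
    set N : κ → ℂ := fun j => ∑ v ∈ Rem, Γ v * ch (dot v (fun l => x l + ξ1 (j l))) with hN
    have horth1 : ∀ l (a : ℤ), a ∈ act → ∀ a' ∈ act, a ≠ a' →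
        ∑ i, ch ((a : ℝ) * (x l + ξ1 i) - (a' : ℝ) * (x l + ξ1 i)) = 0 := by
      intro l a ha a' ha' hne
      calc ∑ i, ch ((a : ℝ) * (x l + ξ1 i) - (a' : ℝ) * (x l + ξ1 i))
          = ch (((a - a' : ℤ) : ℝ) * x l) * ∑ i, ch (((a - a' : ℤ) : ℝ) * ξ1 i) := by
            rw [Finset.mul_sum]
            refine Finset.sum_congr rfl fun i _ => ?_
            rw [← ch_add]
            congr 1
            push_cast
            ring
        _ = 0 := by
            rw [horth a (Finset.mem_filter.1 ha).1 a' (Finset.mem_filter.1 ha').1 hne, mul_zero]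
    have hMsum : ∀ l, ∑ a, ‖M l a‖ ^ 2 ≤ K1 := fun l => by
      rw [hM, sum_sq_orth act γ (fun v a => (v : ℝ) * (x l + ξ1 a))
        (fun v hv v' hv' h => horth1 l v hv v' hv' h), Fintype.card_fin,
        Finset.sum_congr rfl hγ]
      exact mul_le_of_le_one_right (Nat.cast_nonneg _) (hload ψ)
    have hprodM : ∀ j : κ, ∏ l, M l (j l) =
        (∑ v ∈ Act, Γ v * ch (dot v (fun l => x l + ξ1 (j l)))) + N j := fun j => by
      rw [hN, hAct, hRem, Finset.sum_filter_add_sum_filter_not, hM, Finset.prod_univ_sum]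
      refine Finset.sum_congr rfl fun v _ => ?_
      rw [Finset.prod_mul_distrib, dot, ch_sum]
    have hNsum : ∑ j, ‖N j‖ ^ 2 ≤ (K1 : ℝ) ^ R * (8 * (3 / 4 : ℝ) ^ R + η) := by
      simp only [hN]
      rw [sum_sq_orth Rem Γ (fun v (j : κ) => dot v (fun l => x l + ξ1 (j l)))]
      · rw [Fintype.card_fun, Fintype.card_fin, Fintype.card_fin, Nat.cast_pow,
          Finset.sum_congr rfl fun v hv => hΓ v (Finset.mem_filter.1 hv).1]
        exact mul_le_mul_of_nonneg_left hRsum (by positivity)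
      · intro v hv v' hv' hne
        obtain ⟨l0, hl0⟩ := Function.ne_iff.1 hne
        have hv1 := Fintype.mem_piFinset.1 (Finset.mem_filter.1 hv).1
        have hv2 := Fintype.mem_piFinset.1 (Finset.mem_filter.1 hv').1
        calc ∑ j : κ, ch (dot v (fun l => x l + ξ1 (j l)) - dot v' (fun l => x l + ξ1 (j l)))
            = ∑ j : κ, ∏ l, ch ((v l : ℝ) * (x l + ξ1 (j l)) - (v' l : ℝ) * (x l + ξ1 (j l))) :=
              Finset.sum_congr rfl fun j _ => by
                rw [dot, dot, ← Finset.sum_sub_distrib, ch_sum]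
          _ = ∏ l, ∑ i, ch ((v l : ℝ) * (x l + ξ1 i) - (v' l : ℝ) * (x l + ξ1 i)) :=
              (Fintype.prod_sum fun l i =>
                ch ((v l : ℝ) * (x l + ξ1 i) - (v' l : ℝ) * (x l + ξ1 i))).symm
          _ = 0 := Finset.prod_eq_zero (Finset.mem_univ l0)
              (horth1 l0 _ (hv1 l0) _ (hv2 l0) hl0)
    have hfM := sum_prod_sub_le R f M (fun l i => norm_ch _) hMsum (fun l => hγerr (x l))
    have hpt : ∀ j : κ, ch (ψ * ((∑ l, S1 (x l + ξ1 (j l)) : ℕ) : ℝ)) -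
        ∑ v ∈ Act, Γ v * ch (dot v (fun l => x l + ξ1 (j l))) =
          (∏ l, f l (j l) - ∏ l, M l (j l)) + N j := fun j => by
      rw [hprodM, Nat.cast_sum, Finset.mul_sum, ch_sum]
      ring
    calc _ = ∑ j : κ, ‖ch (ψ * ((∑ l, S1 (x l + ξ1 (j l)) : ℕ) : ℝ)) -
          ∑ v ∈ Act, Γ v * ch (dot v (fun l => x l + ξ1 (j l)))‖ ^ 2 := by
            rw [← finFunctionFinEquiv.symm.sum_comp]
            rfl
      _ ≤ ∑ j : κ, (2 * ‖∏ l, f l (j l) - ∏ l, M l (j l)‖ ^ 2 + 2 * ‖N j‖ ^ 2) :=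
          Finset.sum_le_sum fun j _ => by rw [hpt]; exact norm_add_sq_le' _ _
      _ ≤ 2 * ((2 ^ (R + 1) - 2) * η * (K1 : ℝ) ^ R) +
          2 * ((K1 : ℝ) ^ R * (8 * (3 / 4 : ℝ) ^ R + η)) := by
          rw [Finset.sum_add_distrib, ← Finset.mul_sum, ← Finset.mul_sum]
          gcongr
      _ ≤ ε * ((K1 ^ R : ℕ) : ℝ) := by
          rw [Nat.cast_pow]
          have h0 : (0 : ℝ) ≤ (K1 : ℝ) ^ R := by positivity
          have hR0' : 0 ≤ (R : ℝ) * η := by positivity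
          nlinarith [mul_nonneg h0 (by linarith : (0 : ℝ) ≤ ε - 2 * ((2 ^ (R + 1) - 2) * η) -
            2 * (8 * (3 / 4 : ℝ) ^ R + η))]

end Vale.Agent.P130.Full.Core
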