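import Mathlib
import Vale.Agent.P130.Full.Core.Main
import Vale.Agent.P130.Full.Core.Profile
import Vale.Agent.P130.Full.Core.Torus
import Vale.Agent.P130.Full.Core.Colouring
import Vale.Agent.P130.Full.Core.Chirp
import Vale.Agent.P130.Full.Core.Line
import Vale.Agent.P130.Full.Core.Comb
import Vale.Agent.P130.Full.Core.Owner
import Vale.Agent.P130.Full.Core.Sequence

/-!
Flat families of column polynomials exist: all modules of the core put together.
-/

noncomputable section

namespace Vale.Agent.P130.Full.Core

/-- Offsets of bounded size with flat column polynomials. -/
theorem flatFamily : FlatFamilyStatement :=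
  flatFamily_of (torus (profile chirp) colouring) (carrier (comb owner) (line_flat chirp))

end Vale.Agent.P130.Full.Core
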